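import Crest.Agent.N255.Lp.Fam
import Crest.Agent.N255.Lz.Zn
import Crest.Agent.N255.Io.Crd
import Crest.Agent.N255.Cs.End
import Crest.Agent.N255.Cs.CapW
import Crest.Agent.N255.Lz.Vx
import Crest.Agent.N255.Cs.Id
import Crest.Agent.N255.Cs.OnO

-- ▼ part N255/Jt/Jet
section

/-!
# Row 255 (helper48): first order jets of the affine families
-/

set_option autoImplicit false
open Set Module

noncomputable section

namespace Crest.Agent.N255.Jt

open Cs Cs.Tw Tp Ku Lp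

variable {p : ℕ} [Fact p.Prime] {K O : Type} [Field K] [CommRing O] [Algebra K O]
  {G : Gr (Gm p) K O} {m I J Y : Ideal O} {X : Type} [TopologicalSpace X] {n : ℕ}
  {g g0 g1 : Cn G X} {hm : G.Id m} {S : Co (Tw G) 2 X} {W P Q : Sb X}

/-- equality of first order jets on all simplices -/
def Jq (m : Ideal O) (φ ψ : Co (Tw G) n X) : Prop := ∀ σ, In (m * m) (φ σ - ψ σ)

namespace Jq

variable {φ φ' ψ ψ' χ : Co (Tw G) n X}

theorem of_eq (h : φ = ψ) : Jq m φ ψ := fun σ => by rw [h, sub_self]; exact Cs.in_zero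

theorem refl (φ : Co (Tw G) n X) : Jq m φ φ := of_eq rfl

theorem symm (h : Jq m φ ψ) : Jq m ψ φ := fun σ => by simpa using In.neg (h σ)

theorem trans (h : Jq m φ ψ) (h' : Jq m ψ χ) : Jq m φ χ := fun σ => by
  simpa using In.add (h σ) (h' σ)

theorem add (h : Jq m φ ψ) (h' : Jq m φ' ψ') : Jq m (φ + φ') (ψ + ψ') := fun σ =>
  In.eq (In.add (h σ) (h' σ)) (by simp only [Pi.add_apply]; abel)

theorem sub (h : Jq m φ ψ) (h' : Jq m φ' ψ') : Jq m (φ - φ') (ψ - ψ') := fun σ =>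
  In.eq (In.sub (h σ) (h' σ)) (by simp only [Pi.sub_apply]; abel)

theorem neg (h : Jq m φ ψ) : Jq m (-φ) (-ψ) := fun σ =>
  In.eq (In.neg (h σ)) (by simp only [Pi.neg_apply]; abel)

theorem eq (h : Jq m φ ψ) (e : φ' = φ) (e' : ψ' = ψ) : Jq m φ' ψ' := e ▸ e' ▸ h

theorem cob (h : Jq m φ ψ) : Jq m (cob K φ) (cob K ψ) := fun σ => by
  rw [← Pi.sub_apply, ← map_sub]
  exact ci_univ.1 (ci_cob (φ := φ - ψ) (ci_univ.2 h)) σ

theorem ci (h : Jq m φ ψ) (h' : CI W J ψ) : CI W (J ⊔ m * m) φ := fun σ hσ =>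
  In.eq (In.add ((h σ).mono le_sup_right) ((h' σ hσ).mono le_sup_left)) (by abel)

theorem ev (h : Jq m φ ψ) (c : Ch K n X) : In (m * m) (Tp.ev K φ c - Tp.ev K ψ c) := by
  rw [← Tp.ev_sub]
  exact CI.ev (φ := φ - ψ) (ci_univ.2 h) (mem_ch_univ c)

theorem ite (c : Sx n X → Prop) [DecidablePred c] (h : Jq m φ ψ) (h' : Jq m φ' ψ') :
    Jq m (fun σ => if c σ then φ σ else φ' σ) fun σ => if c σ then ψ σ else ψ' σ := fun σ => by
  beta_reduce
  split_ifs
  exacts [h σ, h' σ]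

theorem src {ι : Type} [Fintype ι] (q : ι → Co K n X) {u u' : ι → Tw G}
    (h : ∀ t, In (m * m) (u t - u' t)) : Jq m (src q u) (src q u') := fun σ => by
  rw [← Pi.sub_apply, ← src_sub]; exact src_in h σ



end Jq

theorem dif_one (g : Cn G X) (σ : Sx 1 X) : Cs.dif g 1 σ = (g σ).val - 1 := rfl

/-- the curvature is the coboundary to first order -/
theorem jq_cur (h : ∀ σ, g σ ∈ U hm) : Jq m (cur g) (cob K (Cs.dif g 1)) := fun σ => by
  have := (sD X).F_lin hm h σ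
  rwa [sD_d1 K] at this

/-- integer cochains in `K` -/
def zc (K : Type) [Field K] (α : Co ℤ n X) : Co K n X := fun σ => (α σ : K)


theorem pow_jet {a b : (Tw G)ˣ} (ha : a ∈ U hm) (hb : b ∈ U hm) (i j : ℤ) :
    In (m * m) ((a ^ i * b ^ j).val - 1 - (i • (a.val - 1) + j • (b.val - 1))) :=
  In.eq (In.add (In.add (zpow_one_lin hm ha i) (zpow_one_lin hm hb j))
    (o_mul_mem hm hm (zpow_mem ha i) (zpow_mem hb j))) (by rw [Units.val_mul]; noncomm_ring)





theorem dif_pl_one {hn : IsNilpotent m} {h0 : ∀ σ, g0 σ ∈ U hm} {a : Co (Tw G) 1 X}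
    {ha : ∀ σ, In m (a σ)} : Cs.dif (pl hn g0 h0 a ha) 1 = Cs.dif g0 1 + a :=
  funext fun σ => by rw [Pi.add_apply, dif_one, dif_one, val_pl]; abel


section fam

variable [Module.Finite K O] {H : Co K 2 X →ₗ[K] Co K 1 X} {ι : Type} [Fintype ι]
  {N : Co (Tw G) 2 X} {A B : Co (Tw G) 1 X}


variable (F : Fam hm H g1 S g)
include F

theorem nl_jq : Jq m (nl K g1 S g) (cur g1 - S) :=
  ci_univ.1 (nl_lin hm (F.cu1 _) (F.cu _) fun σ _ => u_sub hm (F.u σ) (F.u1 σ))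











end fam

section W

variable [Fact ((p : O) = 0)]






end W


section gz

variable {κ α ι : Type} [Fintype κ] [Fintype α] {Z : Lz.Gz K X κ α ι} {ε : α → Tw G}

theorem lin_eq (q : α → Co K n X) (ε : α → Tw G) : Lz.lin q ε = src q ε := rfl

/-- the generators lie in every graded ideal that contains the normalised curvature -/
theorem E_mem (hJ : G.Id J) (h : ∀ σ, In J (Z.f g ε σ)) (a : α) (γ : Gm p) : Z.E g ε a γ ∈ J :=
  Lz.co_mem hJ (CI.ev (ci_univ.2 h) (mem_ch_univ _)) (CI.ev (ci_univ.2 h) (mem_ch_univ _)) γ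

omit [Fintype κ] in
theorem f_in (h : CI W J (cur g - S)) (h' : CI W J (S - src Z.q ε)) : CI W J (Z.f g ε) := by
  rw [Lz.Gz.f, lin_eq, ← sub_add_sub_cancel (cur g) S]
  exact ci_add h h'

end gz

end Crest.Agent.N255.Jt

end
end

-- ▼ part N255/Jt/O

/-!
# Row 255 (helper48): linear parts of the generators
-/

set_option autoImplicit false
open Set Module

noncomputable section

namespace Crest.Agent.N255.Jt

open Cs Cs.Tw Tp Ku Lp Io _root_.N255.Dr _root_.N255.Dr.O _root_.N255.Sl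

section gen

variable {p : ℕ} [Fact p.Prime] {K O : Type} [Field K] [CommRing O] [Algebra K O] [Module.Finite K O]
  {G : Gr (Gm p) K O} {m J : Ideal O} {X : Type} [TopologicalSpace X] {g : Cn G X}
  {κ α ι β : Type} [Fintype κ] [Fintype α] {Y : Lz.Gz K X κ α ι} {ε : α → Tw G}


end gen



variable {p : ℕ} [Fact p.Prime] {K σ : Type} [Field K] [Fintype σ] [Fact ((p : K) = 0)]

/-- elements whose linear part only involves the variables in `T` -/
def Jl (p : ℕ) (K : Type) [Field K] {σ : Type} (T : Set σ) : Ideal (O p K σ) := Zs p K T ⊔ mx * mx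

variable {T T' : Set σ} {G : Gr (Gm p) K (O p K σ)} {d : σ → Gm p}

omit [Fact p.Prime] [Fintype σ] [Fact ((p : K) = 0)] in
theorem Jl_eq : Jl p K T = mx ^ 2 ⊔ Zs p K T := by rw [Jl, sup_comm, sq]

omit [Fact p.Prime] [Fintype σ] [Fact ((p : K) = 0)] in
theorem Jl_mx : Jl p K T ≤ mx := sup_le (Zs_mx T) Ideal.mul_le_left

omit [Fact p.Prime] [Fintype σ] [Fact ((p : K) = 0)] in
theorem Zs_mono (h : T ⊆ T') : Zs p K T ≤ Zs p K T' := Ideal.span_mono (image_mono h)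

omit [Fact p.Prime] [Fintype σ] [Fact ((p : K) = 0)] in
theorem Jl_mono (h : T ⊆ T') : Jl p K T ≤ Jl p K T' := sup_le_sup_right (Zs_mono h) _


omit [Fact p.Prime] [Fintype σ] [Fact ((p : K) = 0)] in
theorem z_Jl {a : σ} (h : a ∈ T) : (z a : O p K σ) ∈ Jl p K T := Ideal.mem_sup_left (z_Zs h)

omit [Fintype σ] [Fact ((p : K) = 0)] in
theorem id_Zs (hO : ∀ i, G.Hg (d i) (z i)) (T : Set σ) : G.Id (Zs p K T) :=
  G.id_span_hg (by rintro _ ⟨i, -, rfl⟩; exact ⟨_, hO i⟩)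

omit [Fintype σ] [Fact ((p : K) = 0)] in
theorem id_Jl (hO : ∀ i, G.Hg (d i) (z i)) (T : Set σ) : G.Id (Jl p K T) :=
  (id_Zs hO T).sup ((Tg.id_mx hO).mul (Tg.id_mx hO))

omit [Fact p.Prime] [Fintype σ] in
theorem pd_Jl {u : σ} (hu : u ∉ T) {x : O p K σ} (hx : x ∈ Jl p K T) : pd u x ∈ mx :=
  pd_sup hu (by rwa [← Jl_eq])

omit [Fact p.Prime] [Fintype σ] [Fact ((p : K) = 0)] in
theorem map_Jl {τ : Type} {U : Set τ} (φ : O p K σ →ₐ[K] O p K τ) (h : ∀ a, φ (z a) ∈ mx)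
    (hT : ∀ a ∈ T, φ (z a) ∈ Jl p K U) {x : O p K σ} (hx : x ∈ Jl p K T) : φ x ∈ Jl p K U := by
  rw [Jl_eq] at hx
  obtain ⟨a, ha, b, hb, rfl⟩ := Submodule.mem_sup.1 hx
  rw [map_add]
  exact add_mem (Ideal.mem_sup_right (sq (mx : Ideal (O p K τ)) ▸ map_mx_pow _ h ha))
    (map_Zs φ hT hb)

end Crest.Agent.N255.Jt

end
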