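import Crest.Agent.N255.En.Cm
import Crest.Agent.N255.Ms.Bas
import Crest.Agent.N255.Cs.Id
import Crest.Agent.N255.Ma.Vd
import Crest.Agent.N255.Ma.Sig
import Crest.Agent.N255.En.Off
import Crest.Agent.N255.Dt.Abs
import Crest.Agent.N255.Vz.Defs
import Crest.Agent.N255.Lz.Vx
import Crest.Agent.N255.Vz.Gz_Mg
import Crest.Agent.N255.Wn.WdM
import Crest.Agent.N255.Lp.Cmp
import Crest.Agent.N255.Vf.Adm
import Crest.Agent.N255.Le.Nf
import Crest.Agent.N255.Wz.Sys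
import Crest.Agent.N255.Jt.Bs

-- ▼ part N255/En/VtS
section

/-!
# Row 255 (helper93): shrinking the end of a vertex region, the hypotheses of the vertex identity
-/

set_option autoImplicit false
open Set

noncomputable section

namespace Crest.Agent.N255.Cs
open Tp Tw

variable {X : Type} [TopologicalSpace X] {K : Type} [Field K] {t : Fin 3 → Bool}



variable {p : ℕ} [hpp : Fact p.Prime] {O : Type} [CommRing O] [Algebra K O] {G : Gr (Gm p) K O}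
  {m H L N : Ideal O} {V : Vt K X t} {Q : Sb X} {Qj : Fin 3 → Sb X} {hQ : Q.Le V.M.P}
  {hj : ∀ j, (Qj j).Le (V.T j).P} {hjQ : ∀ j, (Qj j).Le Q} {ht : ∀ j, (V.T j).t ∈ (Qj j).ch K 2}
  {hc : V.c ∈ Q.ch K 3} {x a b : Fin 3 → (Tw G)ˣ} {g : Cn G X}

namespace Vt




variable [Fact ((p : O) = 0)]



end Vt

end Crest.Agent.N255.Cs

namespace Crest.Agent.N255.En.Lev
open Tp Nv Pt Lv Ma Wn Cs Tw Ms

variable {S : Type} [MulAction F3 S] {w : Wl (Fin 3) S} {F : Subgroup F3} {X : Type}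
  [TopologicalSpace X] [MulAction F X] (N : Lev w F X) {M : Md w} {ε R₀ R l r : ℝ} {v : F3}
  {h t : Fin 3 → Bool} {cc : Fin 3 → ℝ} {B B' : Set X} {e : Fin 3 → Ed (Fin 3)}

/-- beyond the longitude cuts -/
def Cj (v : F3) (h : Fin 3 → Bool) (cc : Fin 3 → ℝ) (j : Fin 3) : Set X := hi (N.s (st v h j)) (cc j)

/-- small simplices of the end outside `B` -/
def Qv (v : F3) (h : Fin 3 → Bool) (ε R₀ : ℝ) (B : Set X) : Tp.Sb X :=
  ((N.Pv v h ε R₀).inf (Sm N.cv)).inf (On Bᶜ)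


variable {N}

theorem s_add {e e' : Ed (Fin 3)} (hb : Bey (rev e) e') (x : X) : N.s e x + N.s e' x ≤ 0 := by
  have := N.s_bey _ _ x hb
  rw [N.s_rev] at this
  linarith

theorem Cj_disj (h0 : ∀ j, 0 ≤ cc j) : Pairwise fun i j => Disjoint (N.Cj v h cc i) (N.Cj v h cc j) :=
  fun i j n => disjoint_left.2 fun x hx hx' => by
    have h1 : cc i < N.s (st v h i) x := hx
    have h2 : cc j < N.s (st v h j) x := hx'
    linarith [s_add (N := N) (st_bey v h n) x, h0 i, h0 j]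





/-- deep simplices do not meet the slots -/
theorem deep_out (hε : 0 ≤ ε) (h0 : ∀ j, 0 ≤ cc j) {n : ℕ} {σ : Sx n X}
    (hσ : σ ∈ (Sm (N.Dv v h ε)).S n) (j : Fin 3) : range σ ⊆ (N.Cj v h cc j)ᶜ := by
  obtain ⟨_, ⟨e, -, hb, rfl⟩, h1⟩ := hσ
  intro x hx q
  have h2 : ε < N.s e x := h1 hx
  have h3 : cc j < N.s (st v h j) x := q
  linarith [s_add (N := N) (hb j) x, h0 j]

theorem vl_last (σ : Sx 1 X) {C : Set X} (hσ : range (bk 0 σ) ⊆ C) :
    σ (stdSimplex.vertex 1) ∈ C := by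
  have := hσ ⟨stdSimplex.vertex 0, rfl⟩
  change σ (stdSimplex.map _ (stdSimplex.vertex 0)) ∈ C at this
  rwa [stdSimplex.map_vertex] at this

/-- outside a compact set the small edges that end in a slot lie on its torus -/
theorem exists_B (hB : N.Big ε R₀) (hε : 0 ≤ ε) (hc : ∀ j, ε < cc j) : ∃ B, IsCompact B ∧
    ∀ σ ∈ (N.Qv v h ε R₀ B).S 1, ∀ j, slv (N.Cj v h cc) σ = some j →
      σ ∈ (N.Lb R₀ (w.T (st v h j))).S 1 := by
  have h0 : ∀ j, 0 ≤ cc j := fun j => hε.trans (hc j).le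
  choose R hR using fun j => N.s_slow ((cc j - ε) / 2) (by linarith [hc j])
  refine ⟨⋃ j, {x | N.r x ≤ R j ∧ |N.s (st v h j) x| ≤ 2},
    isCompact_iUnion fun j => N.cpt_w _ _ _, ?_⟩
  rintro σ ⟨⟨h1 | h1, U, hU, h2⟩, h3⟩ j q
  swap
  · exact absurd q (slv_ne (deep_out hε h0 h1.1 j))
  have h4 : cc j < N.s (st v h j) (σ (stdSimplex.vertex 1)) :=
    vl_last σ ((slv_some (Cj_disj h0)).1 q)
  have f : ∀ y, R₀ < N.r (σ y) := fun y => h1.1 ⟨y, rfl⟩
  have l1 : ∀ i : Fin 2, ε < N.s (st v h j) (σ (stdSimplex.vertex i)) →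
      vl N.lab σ i ∈ w.T (st v h j) := fun i hi =>
    w.mem_T (Wl.mem_Mod3.1 (Lb_lab h1 i) j) (hB.side' (f _) hi)
  have h5 := N.lab_T _ _ (hB.le.trans_lt (f _)) (l1 1 ((hc j).trans h4))
  have h6 : R j < N.r (σ (stdSimplex.vertex 1)) :=
    not_le.1 fun z => h3 ⟨_, rfl⟩ (mem_iUnion.2 ⟨j, z, h5⟩)
  refine ⟨h1.1, ?_, h1.2.2⟩
  rintro _ ⟨i, rfl⟩
  refine l1 i ?_
  have h7 := hR j (rev (st v h j)) U hU _ (h2 ⟨stdSimplex.vertex 1, rfl⟩) _
    (h2 ⟨stdSimplex.vertex i, rfl⟩) h6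
  rw [N.s_rev, N.s_rev] at h7
  linarith [hc j]

variable {k : Type} [Field k] {hB : N.Big ε R₀} {L : Ma.Gm w M}
  {he : ∀ j, e j = if t j then st v h j else rev (st v h j)}
  {τ τ' : Fin 3 → Ch k 2 X} {h1 : ∀ j, τ j ∈ (N.Lb R₀ (w.T (e j))).ch k 2} {h2 : ∀ j, bd k (τ j) = 0}
  {h1' : ∀ j, τ' j ∈ (N.Lb R₀ (w.T (e j))).ch k 2} {h2' : ∀ j, bd k (τ' j) = 0}
  {c c' : Ch k 3 X} {hc : c ∈ (N.Pv v h ε R₀).ch k 3} {hc' : c' ∈ (N.Pv v h ε R₀).ch k 3}
  {hb : bd k c + ∑ j, (if t j then τ j else -τ j) = 0}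
  {hb' : bd k c' + ∑ j, (if t j then τ' j else -τ' j) = 0}


variable {p : ℕ} [hpp : Fact p.Prime] {A : Type} [CommRing A] [Algebra k A] {G : Gr (Cs.Gm p) k A}
  {m I J : Ideal A} {x a b : Fin 3 → (Tw G)ˣ} {hm : G.Id m} {hn : IsNilpotent m}
  {hx : ∀ j, x j ∈ Tw.U hm} {g : Cn G X}




end Crest.Agent.N255.En.Lev

end
end

-- ▼ part N255/Vd/Off
section

/-!
# Row 255 (helper74): existence of the vertex data and of the compact set `K` of `Vd.Off`
-/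

set_option autoImplicit false
open Set Sum

noncomputable section

namespace Crest.Agent.N255.Ma
open Tp Nv Pt Lv En Wn Le Cs

variable {F : Subgroup F3} {S : Type} [MulAction F3 S] {X : Type} [TopologicalSpace X]
  [MulAction F X] [ContinuousConstSMul F X] {J : Fin 3 → Type} [∀ i, Fintype (J i)]

/-- a finite family of compactly supported cochains vanishes off one compact set -/
theorem exists_van_off {k ι : Type} [Field k] [Finite ι] {m : ℕ} {φ : ι → Co k m X}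
    (h : ∀ i, φ i ∈ Cc k univ k m) : ∃ K, IsCompact K ∧ ∀ i, φ i ∈ (On Kᶜ).van k k m := by
  choose K h1 _ h3 using h
  exact ⟨⋃ i, K i, isCompact_iUnion h1, fun i => van_supp (subset_iUnion K i) (h3 i)⟩

section scalar
variable {k : Type} [Field k] {g : Geo F k S X} {u R₀ : ℝ} {n : ℕ}

variable {τ : ∀ i, Ty (J i)} {v : F3} {h o : Fin 3 → Bool}

/-- the vertex data from three walls, the linear classes and the parametrix -/
theorem exists_vd_of (hn : 0 < n) (ω : ∀ i, Wd g u R₀ n (τ i) (st v h i) (o i))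
    (dep : ∀ i j, i ≠ j → (ω i).Dep (ω j))
    (hl : ∀ c : Fin 3 → ℝ, (∀ i, 0 ≤ c i) → Nonempty (Vl.Lin ω c)) (hf : Nonempty (VF ω)) :
    ∃ D : Vd g u R₀ n τ v h o, D.ω = ω := by
  have a0 : ∀ i, 0 < (ω i).a := fun i => (ω i).u0.trans_le (ω i).ua
  obtain ⟨lin⟩ := hl (fun i => ((ω i).a + (ω i).l 0) / 2) fun i => by linarith [a0 i, (ω i).al]
  obtain ⟨vf⟩ := hf
  exact ⟨⟨ω, hn, dep, _, fun i => by linarith [(ω i).al], fun i => by linarith [(ω i).al], lin, vf⟩, rfl⟩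

/-- **the vertex data exist** once the parametrix does -/
theorem exists_vd (hn : 0 < n) (ω : ∀ i, Wd g u R₀ n (τ i) (st v h i) (o i))
    (dep : ∀ i j, i ≠ j → (ω i).Dep (ω j)) (hf : Nonempty (VF ω)) :
    ∃ D : Vd g u R₀ n τ v h o, D.ω = ω :=
  exists_vd_of hn ω dep (fun _ hc => Vl.exists_lin hn dep hc) hf

end scalar

variable {p : ℕ} [Fact p.Prime] {g : Geo F (ZMod p) S X} {u R₀ : ℝ} {n : ℕ} {τ : ∀ i, Ty (J i)}
  {v : F3} {h o : Fin 3 → Bool}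

namespace Vd
variable (D : Vd g u R₀ n τ v h o)


theorem V0_TP (i : Fin 3) : (D.V0.T i).P = g.E.toLev.Lb R₀ (g.w.T (st v h i)) :=
  congrArg (g.E.toLev.Lb R₀) (Lev.T_ek (w := g.w) (e := Sg.em v h o) (fun _ => rfl) i)

variable {D} in
theorem Off.mono {K : Set X} {R R' : ℝ} (O : D.Off K R) (hR : R ≤ R') : D.Off K R' :=
  { O with le := O.le.trans hR, rad := fun x hx => (O.rad x hx).trans hR }

/-- **the compact set**, containing any prescribed compact set `K₀` -/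
theorem exists_off' {K₀ : Set X} (h0 : IsCompact K₀) :
    ∃ K R, K₀ ⊆ K ∧ ∀ R', R ≤ R' → D.Off K R' := by
  have hB := (D.ω 0).big
  have u0 := (D.ω 0).u0.le
  obtain ⟨B1, c1, e1⟩ := D.fam.far D.vf.cc
  obtain ⟨B2, c2, e2⟩ := exists_van_off D.lin.cc
  obtain ⟨B3, c3, e3⟩ := exists_van_off (ι := Cl3 J) fun q => (D.ω q.1).cx_cc q.2
  obtain ⟨B4, c4, e4⟩ := g.E.toLev.exists_off_Pv v h u0 hB le_rfl
  obtain ⟨B5, c5, e5⟩ := Lev.exists_B (v := v) (h := h) hB u0 D.u_lt_c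
  choose B6 c6 e6 using fun i => g.E.toLev.exists_off_Lb hB le_rfl (st v h i)
  set K := K₀ ∪ (B1 ∪ (B2 ∪ (B3 ∪ (B4 ∪ (B5 ∪ ⋃ i, B6 i))))) with hK
  have cK : IsCompact K := h0.union (c1.union (c2.union (c3.union (c4.union
    (c5.union (isCompact_iUnion c6))))))
  have s1 : B1 ⊆ K := fun x hx => by simp [hK, hx]
  have s2 : B2 ⊆ K := fun x hx => by simp [hK, hx]
  have s3 : B3 ⊆ K := fun x hx => by simp [hK, hx]
  have s4 : B4 ⊆ K := fun x hx => by simp [hK, hx]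
  have s5 : B5 ⊆ K := fun x hx => by simp [hK, hx]
  have s6 : ∀ i, B6 i ⊆ K := fun i x hx => .inr (.inr (.inr (.inr (.inr (.inr (mem_iUnion.2 ⟨i, hx⟩))))))
  obtain ⟨R₁, hr⟩ := g.E.toLev.exists_rad cK
  have pv := e4 K s4 (fun _ => 1 - u) fun _ => le_rfl
  refine ⟨K, max R₀ R₁, subset_union_left, fun R hR => ⟨cK, (le_max_left _ _).trans hR,
    hr R ((le_max_right _ _).trans hR), fun σ hσ => ?_, fun q => van_supp s2 (e2 q),
    fun i x => van_supp s3 (e3 ⟨i, x⟩), pv, fun i e he hs => ?_, fun i => ?_⟩⟩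
  · rw [e1 σ (On_le (compl_subset_compl.2 s1) 1 hσ)]
    refine Lp.pl_eq (Finset.sum_eq_zero fun q _ => ?_)
    rw [van_supp s2 (e2 q) σ hσ, zero_smul]
  · rw [V0_TP]
    exact e5 e ⟨⟨pv 1 he, he.1.2⟩, On_le (compl_subset_compl.2 s5) 1 he.2⟩ i hs
  · rw [V0_TP]
    exact e6 i K (s6 i) u (1 - u) le_rfl le_rfl

/-- **the compact set** -/
theorem exists_off : ∃ K R, ∀ R', R ≤ R' → D.Off K R' :=
  let ⟨K, R, _, h⟩ := D.exists_off' isCompact_empty
  ⟨K, R, h⟩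

end Vd

end Crest.Agent.N255.Ma

end
end

-- ▼ part N255/Dt/Vx
section

/-!
# Row 255 (helper72): the scalar facts `Gz.Ok` on the zones of a vertex
-/

set_option autoImplicit false
open Set

noncomputable section

namespace Crest.Agent.N255.Dt

open Tp Wn Mv Vz Lz

variable {X : Type} [TopologicalSpace X] {k : Type} [Field k] {ι α κ μ : Type} {𝒞 : Set (Set X)}


/-- **the far classes of a vertex**: `η a` is the class `h a` cut at the level `c a` of the wall `sl a` -/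
structure Fv (L : Lv X ι) (𝒞 : Set (Set X)) (r : C(X, ℝ)) (sl : α → ι) (pa : α → ℕ) (c : α → ℝ)
    (η h : α → Co k 1 X) : Prop where
  c0 : ∀ a, 0 < c a
  c1 : ∀ a, c a ≤ L.l (sl a) (pa a + 1)
  lt : ∀ a, pa a < L.n
  l1 : ∀ a, η a ∈ (Sw 𝒞 (lo (L.s (sl a)) (c a))).van k k 1
  l2 : ∀ a, η a - h a ∈ (Sw 𝒞 (hi (L.s (sl a)) (c a))).van k k 1
  l3 : ∀ a, h a ∈ (Sw 𝒞 (hi (L.s (sl a)) (c a))).Z k k 1
  sp : ∀ i m, m < L.n → (On (hi (L.s i) (L.l i m))).Z k k 1 ≤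
    Submodule.span k (h '' {a | pa a ≤ m ∧ sl a = i}) ⊔ (Sw 𝒞 (hi (L.s i) (L.l i (m + 2)))).Ex k k 1
  cst : ∀ i m, m < L.n → (On (lo (L.s i) (L.l i (m + 2)))).Z k k 1 ≤
    (Sw 𝒞 (lo (L.s i) (L.r i))).Z k k 1 ⊔ (Sw 𝒞 (lo (L.s i) (L.l i m))).Ex k k 1
  cpt : ∀ i R, IsCompact (box (L.s i) r 0 (L.r i) R)

/-- the vertex chain, cut into zones: fundamental on `Q` up to the centres, bounded by wall chains and a
chain off `Q` -/
structure Rh [Fintype ι] (L : Lv X ι) (𝒞 : Set (Set X)) (O : Ori k 3 X) (Q : Set X)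
    (ρ : L.Ix → Ch k 4 X) : Prop where
  cpt : IsCompact Q
  mem : ∀ z, ρ z ∈ (L.P 𝒞 z).ch k 4
  fund : O.Fund (Q ∩ {x | ∀ i, L.s i x ≤ L.l i L.n}) (∑ z, ρ z)
  bd : ∃ c ∈ (On Qᶜ).ch k 3, ∃ σ : ι → Ch k 3 X,
    (∀ i, σ i ∈ (On (hi (L.s i) (L.l i L.n))).ch k 3) ∧ bd k (∑ z, ρ z) = c + ∑ i, σ i

section defs
variable (L : Lv X ι) (𝒞) (i₀ : ι) (pa : α → ℕ) (η : α → Co k 1 X) (Q : Set X) (ρ : L.Ix → Ch k 4 X)

/-- the far parts of the zones -/
def Fz (z : L.Ix) : Sb X := SB 𝒞 (L.zs z \ Q)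

/-- deep zones -/
def dp (z : L.Ix) : Prop := L.n < L.pos z + 5

/-- the zone data without the predicates -/
def gz0 : Gz k X L.Ix α ι where
  P := L.P 𝒞
  PK i := L.P 𝒞 (L.ce i)
  q a := cob k (η a)
  ρ := ρ
  γ := 4
  pos := L.pos
  pa := pa
  sl := L.sl i₀
  N1 _ _ := True
  N2 _ _ := True

/-- **the zone data of a vertex** -/
def gz : Gz k X L.Ix α ι :=
  { gz0 𝒞 L i₀ pa η ρ with
    N1 := (gz0 𝒞 L i₀ pa η ρ).M1 (gz0 𝒞 L i₀ pa η ρ).NF (Fz 𝒞 L Q) (dp L)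
    N2 := (gz0 𝒞 L i₀ pa η ρ).M2 (gz0 𝒞 L i₀ pa η ρ).NF (Fz 𝒞 L Q) }



end defs

variable {L : Lv X ι} {r : C(X, ℝ)} {sl : α → ι} {pa : α → ℕ} {c : α → ℝ} {η h : α → Co k 1 X}


namespace Fv
variable (V : Fv L 𝒞 r sl pa c η h)
include V





variable [Fintype ι] {O : Ori k 3 X} {Q : Set X} {ρ : L.Ix → Ch k 4 X} (H : Rh L 𝒞 O Q ρ)
include H


variable (ho : ∀ C ∈ 𝒞, IsOpen C) (hc : univ ⊆ ⋃₀ 𝒞) [T2Space X] [ChartedSpace (EE 4) X] (hO : O.ND)
  (hX : Acy k (univ : Set X) univ)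
include ho hc hO hX




end Fv

end Crest.Agent.N255.Dt

end
end

-- ▼ part N255/Vf/Rc
section

/-!
# Row 255 (helper36): the chains of the vertex region of `Vd`
-/

set_option autoImplicit false
open Set

noncomputable section

namespace Crest.Agent.N255.Ma.Vd
open Tp En Wn

variable {F : Subgroup F3} {S : Type} [MulAction F3 S] {X : Type} [TopologicalSpace X]
  [MulAction F X] [ContinuousConstSMul F X] {J : Fin 3 → Type} [∀ i, Fintype (J i)]

section scalar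
variable {k : Type} [Field k] {g : Geo F k S X} {u R₀ : ℝ} {n : ℕ} {τ : ∀ i, Ty (J i)} {v : F3}
  {h o : Fin 3 → Bool} (D : Vd g u R₀ n τ v h o) {K : Set X} {R : ℝ} {σ : Fin 3 → Ch k 3 X}

theorem exists_rc' [T2Space X] (hK : IsCompact K) (hs : ∀ i, (D.ω i).Sig R (σ i)) :
    Nonempty (D.Rc K R σ) :=
  (D.st' hs).exists_rc (L := D.L) rfl (fun _ => le_rfl) (fun _ => le_rfl)
    (fun i => (D.r_le i n).trans (by linarith [(D.ω i).u0])) (D.ω 0).u0.le hK hK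









end scalar

variable {p : ℕ} [Fact p.Prime] {g : Geo F (ZMod p) S X} {u R₀ : ℝ} {n : ℕ} {τ : ∀ i, Ty (J i)} {v : F3}
  {h o : Fin 3 → Bool} (D : Vd g u R₀ n τ v h o) {K : Set X} {R : ℝ} {σ : Fin 3 → Ch (ZMod p) 3 X}

/-- **the chains exist** -/
theorem exists_rc [T2Space X] (O : D.Off K R) (hs : ∀ i, (D.ω i).Sig R (σ i)) : Nonempty (D.Rc K R σ) :=
  D.exists_rc' O.cpt hs


end Crest.Agent.N255.Ma.Vd

end
end

-- ▼ part N255/Vf/Zok
section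

/-!
# Row 255 (helper86): the located ideals of a vertex satisfy the hypotheses of the ideal calculus
-/

set_option autoImplicit false
open Set Module Sum

noncomputable section

namespace Crest.Agent.N255.Ma.Vd
open Tp Nv Pt Lv En Wn Le Cs Cs.Tw _root_.N255.Core _root_.N255.Dr _root_.N255.Dr.O

variable {F : Subgroup F3} {S : Type} [MulAction F3 S] {X : Type} [TopologicalSpace X]
  [MulAction F X] [ContinuousConstSMul F X] {p : ℕ} [Fact p.Prime] {J : Fin 3 → Type}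
  [∀ i, Fintype (J i)] {g : Geo F (ZMod p) S X} {u R₀ : ℝ} {n : ℕ} {τ : ∀ i, Ty (J i)} {v : F3}
  {h o : Fin 3 → Bool} {D : Vd g u R₀ n τ v h o} {K : Set X} {ρ : D.Ix → Ch (ZMod p) 4 X}

theorem zok_fl {A : Type} [CommRing A] (m : Ideal A) :
    _root_.N255.Sl.Fl fun a => m ^ ((a + 12) / 13) where
  zero := by simp
  anti h := Ideal.pow_le_pow_right (by omega)
  mul a b := (pow_add m _ _).ge.trans (Ideal.pow_le_pow_right (by omega))

/-- **the located ideals** -/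
theorem Z_ok (hY : (D.Y K ρ).Ok) (nf : ∀ l, (D.Y K ρ).NF (Ku.lc l (D.f K ρ)))
    (f0 : ∀ k, D.L.pos k = 0 → CI (D.Fz K k) (D.XV ⊔ mx * (D.Y K ρ).Iz D.GV D.ε k) (D.f K ρ))
    (f1 : ∀ k, 0 < D.L.pos k → CI (D.Fz K k) (mx * (D.Y K ρ).Iz D.GV D.ε k) (D.f K ρ)) :
    (D.Z K ρ).Ok :=
  hY.vx (hm := G2_mx p J) (fun _ => D.fam.cu _) (zok_fl mx) Tg.mx_nil (by simp)
    (show 3 * 4 < 13 by omega) (fun i => ⟨_, D.bX_hg i⟩) (fun _ => (G2 p J).id_bot)
    (Nf := (D.Y K ρ).NF) (Fz := D.Fz K) (fun _ _ q => q) (fun _ _ _ q => q) nf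
    (fun k q => D.span_bX ▸ f0 k q) f1

end Crest.Agent.N255.Ma.Vd

end
end

-- ▼ part N255/Wn/WdV
section

/-!
# Row 255 (helper46): the two spanning facts used at a vertex
-/

set_option autoImplicit false
open Set

noncomputable section

namespace Crest.Agent.N255.Ma.Wd
open Tp Nv Pt Lv En Wn Le

variable {F : Subgroup F3} {S : Type} [MulAction F3 S] {X : Type} [TopologicalSpace X]
  [MulAction F X] [ContinuousConstSMul F X] {k : Type} [Field k] {g : Geo F k S X} {u R₀ : ℝ} {n : ℕ}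
  {J : Type} [Fintype J] {τ : Ty J} {e : Ed (Fin 3)} {o : Bool} (ω : Wd g u R₀ n τ e o) {m : ℕ} {t : ℝ}

/-- the classes beyond the wall are spanned by the far classes (and the holonomy class at an `M` slot) -/
theorem sp_far (hm : m < n) (h0 : 0 < t) (h : t < ω.l (m + 1)) {H : Set (Co k 1 X)}
    (h1 : ∀ j, τ.kd j ≠ o → τ.sc j ≤ m → ω.h j ∈ H)
    (h2 : o = true → Or.Xe g.E.toLev g.M k (rev (me e o)) R₀ - ω.η ∈ H) :
    (On (hi (g.E.s e) t)).Z k k 1 ≤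
      Submodule.span k H ⊔ (SB g.E.cv (hi (g.E.s e) (ω.l (m + 2)))).Ex k k 1 := by
  have a : ω.Hs false m ⊆ H := by
    rintro _ ⟨j, c, d, rfl⟩
    exact h1 j (by simpa using c) d
  cases o
  · exact (ω.span_hi_M hm h0 h).trans (sup_le_sup (Submodule.span_mono a) (Sb.Ex_mono Sb.inf_le_left))
  · refine (ω.span_hi' hm h0 h).trans (sup_le (Submodule.span_le.2 ?_)
      ((Sb.Ex_mono Sb.inf_le_left).trans le_sup_right))
    rintro _ (rfl | c)
    · exact Submodule.mem_sup.2 ⟨_, Submodule.subset_span (h2 rfl), _,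
        Submodule.mem_sup_right (Sb.van_mono Sb.inf_le_right ω.bz.sm), by abel⟩
    · exact Submodule.mem_sup_left (Submodule.subset_span (a c))

/-- the classes behind the wall extend to the centre up to exact ones -/
theorem cst_on (hm : m < n) (h : ω.l (m + 1) < t) (h1 : t < 1) : (On (lo (g.E.s e) t)).Z k k 1 ≤
    (On (lo (g.E.s e) (ω.r n))).Z k k 1 ⊔ (On (lo (g.E.s e) (ω.l m))).Ex k k 1 := by
  have a : Submodule.span k (ω.Hs true m) ≤ (On (lo (g.E.s e) (ω.r n))).Z k k 1 :=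
    Submodule.span_le.2 (by rintro _ ⟨j, c, -, rfl⟩; exact ω.h_lo c)
  cases o
  · refine (ω.span_lo hm h h1).trans (sup_le_sup_right (Submodule.span_le.2 ?_) _)
    rintro _ (rfl | c)
    · exact Sb.Z_mono (On_le (lo_mono (ω.lt_b n).le)) ω.hw_Z
    · exact a (Submodule.subset_span c)
  · exact (sp_A (lo_mono (ω.lr.l_le m.le_succ)) (ω.sp_lo_M (ω.a_lt _) h h1)
      (ω.zp_lo hm le_rfl (ω.lr.lt _ _).le)).trans (sup_le_sup_right a _)

theorem cst_sb (hm : m < n) : (On (lo (g.E.s e) (ω.l (m + 2)))).Z k k 1 ≤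
    (SB g.E.cv (lo (g.E.s e) (ω.r n))).Z k k 1 ⊔ (SB g.E.cv (lo (g.E.s e) (ω.l m))).Ex k k 1 :=
  (ω.cst_on hm (ω.lr.ml (m + 1).lt_succ_self) (((ω.lr.lt _ 0).trans ω.rb).trans ω.b_lt)).trans
    (sup_le_sup (Sb.Z_mono Sb.inf_le_left) (Sb.Ex_mono Sb.inf_le_left))

end Crest.Agent.N255.Ma.Wd
end
end

-- ▼ part N255/Vf/Yok
section

/-!
# Row 255 (helper72): the scalar facts on the zones of a vertex
-/

set_option autoImplicit false
open Set

noncomputable section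

namespace Crest.Agent.N255.Ma.Vd

open Tp Wn Pt Lv En

variable {F : Subgroup F3} {S : Type} [MulAction F3 S] {X : Type} [TopologicalSpace X]
  [MulAction F X] [ContinuousConstSMul F X] {J : Fin 3 → Type} [∀ i, Fintype (J i)] {u R₀ R : ℝ} {n : ℕ}
  {τ : ∀ i, Ty (J i)} {v : F3} {h o : Fin 3 → Bool} {K : Set X} [T2Space X] [ChartedSpace (EE 4) X]

/-- **the scalar facts at a vertex** -/
theorem Y_ok {k : Type} [Field k] {g : Geo F k S X} (D : Vd g u R₀ n τ v h o) {σ : Fin 3 → Ch k 3 X}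
    (hK : IsCompact K) (rad : ∀ x ∈ K, g.E.r x ≤ R) (hs : ∀ i, (D.ω i).Sig R (σ i))
    (r : D.Rc K R σ) : (D.Y K r.ρ).Ok := by
  refine D.src.gz_ok g.E.cv_open g.E.cv_cover.ge g.nd g.acy (r := g.E.r)
    (fun _ _ => g.E.toLev.cpt_win _ _ _ _)
    (fun i m _ hm => (D.ω i).sp_far hm (Vz.Lv.l_pos (L := D.L)) (Vz.Lv.l_lt (L := D.L) m.lt_succ_self)
      (fun j e hj => ⟨⟨⟨i, .inl j⟩, congrArg some (Bool.eq_not_iff.2 e)⟩, ⟨hj, rfl⟩, rfl⟩)
      fun e => ⟨⟨⟨i, .inr false⟩, by simp [Ty.kb, e]⟩, ⟨Nat.zero_le _, rfl⟩, rfl⟩)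
    (fun i m hm => (D.ω i).cst_sb ((Nat.le_add_right m 2).trans_lt hm)) hK
    (hK.inter_right (Sg.isClosed_inn _ _)) (fun _ hx => ⟨hx.1, fun j => (hx.2 j).le⟩) r.mem r.fund ?_
  have m := fun j => Sb.ch_mono ((Sb.inf_le_left.trans (On_le win_hi)).trans
    (Vz.Lv.le_Qb' (L := D.L) K j)) ((D.st' hs).mem j)
  rw [r.bd]
  refine add_mem (Sb.ch_mono ((Sb.inf_le_left.trans (Sg.Pc_off rad)).trans (Vz.Lv.le_Qb K)) r.hc)
    (sum_mem fun j _ => ?_)
  split_ifs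
  exacts [m j, neg_mem (m j)]

theorem Off.Y_ok {p : ℕ} [Fact p.Prime] {g : Geo F (ZMod p) S X} {D : Vd g u R₀ n τ v h o}
    {σ : Fin 3 → Ch (ZMod p) 3 X} (O : D.Off K R) (hs : ∀ i, (D.ω i).Sig R (σ i)) (r : D.Rc K R σ) :
    (D.Y K r.ρ).Ok := D.Y_ok O.cpt O.rad hs r

end Crest.Agent.N255.Ma.Vd

end
end

-- ▼ part N255/Vf/Nf
section

/-!
# Row 255 (helper88): the normalised curvature of the vertex family is a normal form on all zones
-/

set_option autoImplicit false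
open Set Module Sum

noncomputable section

namespace Crest.Agent.N255.Ma.Vd
open Tp Nv Pt Lv En Wn Le Cs Cs.Tw

variable {F : Subgroup F3} {S : Type} [MulAction F3 S] {X : Type} [TopologicalSpace X]
  [MulAction F X] [ContinuousConstSMul F X] {J : Fin 3 → Type} [∀ i, Fintype (J i)]
  {u R₀ : ℝ} {n : ℕ} {τ : ∀ i, Ty (J i)} {v : F3} {h o : Fin 3 → Bool}

section scalar
variable {k : Type} [Field k] {g : Geo F k S X} (D : Vd g u R₀ n τ v h o)

theorem zs_mem (i : Fin 3) (z : Fin (n + 1)) : D.L.zs (some (i, z)) ∈ (D.ω i).Z 0 := by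
  rcases eq_or_ne z (Fin.last _) with rfl | hz
  · exact .inl (Vz.Lv.zs_ce (L := D.L))
  · have hz : (z : ℕ) < n := Fin.val_lt_last hz
    exact .inr ⟨z, Nat.zero_le _, hz, .inl (Vz.Lv.zs_lt (L := D.L) hz)⟩

/-- the normal forms of the vertex -/
theorem nf_EG (ρ : D.Ix → Ch k 4 X) {e : Co k 2 X} (he : e ∈ D.vf.EG) : (D.Y0 ρ).NF e
  | none => D.vf.core e he
  | some (i, z) => D.vf.zn i _ (D.zs_mem i z) e he

/-- the near sources vanish on all zones -/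
theorem qa_near {q : Cl3 J} (hq : (τ q.1).kb q.2 ≠ some (!o q.1)) (z : D.Ix) :
    D.qa q ∈ (D.P z).van k k 2 := by
  obtain ⟨i, j | c⟩ := q
  · have e : (τ i).kd j = o i := by
      by_contra e
      exact hq (congrArg some (Bool.eq_not_iff.2 e))
    have := (Wv.ct_ZP ((D.ω i).mem j) subset_rfl).2
    refine Sb.van_mono (Sb.inf_le_left.trans (On_le ?_)) (Sb.mem_Z.1 this)
    rw [show Bs _ _ _ _ _ = _ from Vl.B_near e _]
    exact (Vz.Lv.zs_lo z i).trans (lo_mono ((D.ω i).win.ar.antitone ((D.ω i).sc_lt j)))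
  · have : D.pq ⟨i, inr c⟩ = 0 := if_neg fun ⟨e, e'⟩ => hq (by simp [Ty.kb, e, e'])
    rw [qa, this, map_zero]
    exact zero_mem _

theorem sum_far (x : Cl3 J → k) (z : D.Ix) :
    ∑ q, x q • D.qa q - ∑ a : Fr τ o, x a.1 • D.qa a.1 ∈ (D.P z).van k k 2 := by
  classical
  have e := Fintype.sum_subtype_add_sum_subtype (fun q : Cl3 J => (τ q.1).kb q.2 = some (!o q.1))
    fun q => x q • D.qa q
  have e' : ∑ a : Fr τ o, x a.1 • D.qa a.1 =
      ∑ a : {q : Cl3 J // (τ q.1).kb q.2 = some (!o q.1)}, x a.1 • D.qa a.1 :=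
    Finset.sum_congr (congrArg _ (Subsingleton.elim _ _)) fun _ _ => rfl
  rw [← e, e', add_sub_cancel_left]
  exact sum_mem fun q _ => Submodule.smul_mem _ _ (D.qa_near q.2 z)




end scalar

variable {p : ℕ} [Fact p.Prime] {g : Geo F (ZMod p) S X} (D : Vd g u R₀ n τ v h o) (K : Set X)
  (ρ : D.Ix → Ch (ZMod p) 4 X)

theorem cur_EG (l : Dual (ZMod p) (Tw (G2 p J))) : Ku.lc l (cur D.GV - D.SG) ∈ D.vf.EG :=
  D.fam.curv l ▸ D.vf.nf _

theorem lc_f_sub (l : Dual (ZMod p) (Tw (G2 p J))) (z : D.Ix) :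
    Ku.lc l (D.f K ρ) - Ku.lc l (cur D.GV - D.SG) ∈ (D.P z).van (ZMod p) (ZMod p) 2 := by
  rw [f, Lz.Gz.f, Lp.lc_sub, Lp.lc_sub, sub_sub_sub_cancel_left, SG, Lp.lc_src, Lz.lc_lin]
  exact D.sum_far (fun q => l (xV p q)) z




/-- **the normalised curvature is a normal form** -/
theorem nf (l : Dual (ZMod p) (Tw (G2 p J))) : (D.Y0 ρ).NF (Ku.lc l (D.f K ρ)) :=
  (D.nf_EG ρ (D.cur_EG l)).congr (D.lc_f_sub K ρ l)

theorem nf' (l : Dual (ZMod p) (Tw (G2 p J))) : (D.Y K ρ).NF (Ku.lc l (D.f K ρ)) := D.nf K ρ l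


end Crest.Agent.N255.Ma.Vd

end
end

-- ▼ part N255/Lz/Far
section

/-!
# Row 255 (helper85): the normalised curvature of a vertex family on the far parts of the zones
-/

set_option autoImplicit false
open Set

noncomputable section

namespace Crest.Agent.N255.Lz

open Cs Cs.Tw Tp

variable {p : ℕ} [Fact p.Prime] {K O : Type} [Field K] [CommRing O] [Algebra K O]
  {G : Gr (Gm p) K O} {m I J B N : Ideal O} {X : Type} [TopologicalSpace X] {P Q : Sb X}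

section core
variable {t : Fin 3 → Bool} {V : Vt K X t} {C : Fin 3 → Set X} {x a b : Fin 3 → (Tw G)ˣ}
  {hm : G.Id m} {hn : IsNilpotent m} {hx : ∀ j, x j ∈ U hm}

theorem ja_m (hx : ∀ j, x j ∈ U hm) {j : Fin 3} (ha : a j ∈ U hm) : In m (Ms.ja V x a j) := by
  unfold Ms.ja
  split_ifs
  · exact In.eq (In.sub ha (hx j)) (by abel)
  · exact In.eq (In.sub ha ((V.la_in hm hx j).mono Ideal.mul_le_right)) (by abel)

theorem jb_m (hx : ∀ j, x j ∈ U hm) {j : Fin 3} (hb : b j ∈ U hm) : In m (Ms.jb V x b j) := by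
  unfold Ms.jb
  split_ifs
  · exact In.eq (In.sub hb ((V.la_in hm hx j).mono Ideal.mul_le_right)) (by abel)
  · exact In.eq (In.sub hb (hx j)) (by abel)

/-- the coboundary of the jump -/
theorem cob_jp (hC : Pairwise fun i j => Disjoint (C i) (C j)) (σ : Sx 2 X) :
    cob K (Ms.jp V (Ms.slv C) x a b) σ =
      ∑ j, (cob K (Wv.ct (C j) (Ms.zc K (V.T j).al)) σ • Ms.ja V x a j +
        cob K (Wv.ct (C j) (Ms.zc K (V.T j).be)) σ • Ms.jb V x b j) := by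
  simp only [cob_d1, d1, Ms.jp_eq hC, add_smul, sub_smul, Finset.sum_add_distrib,
    Finset.sum_sub_distrib]
  abel

/-- **the far part of a zone**: the jumps on `al` lie in `B`, the jumps on `be` are the sources -/
theorem far_core (hC : Pairwise fun i j => Disjoint (C i) (C j)) (hB : G.Id B) (hI : G.Id I)
    (hN : G.Id N) (Nm : N ≤ m) (NB : N * N * N ≤ B) (h : ∀ j, x j ∈ U hN)
    (ha : ∀ j, a j ∈ U hm) (hb : ∀ j, b j ∈ U hm) (ja : ∀ j, In B (Ms.ja V x a j))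
    (jb : ∀ j, In I (Ms.jb V x b j)) (hM : Q.Le V.M.P)
    (hT : ∀ e ∈ Q.S 1, ∀ j, Ms.slv C e = some j → e ∈ (V.T j).P.S 1) {g : Cn G X}
    (hg : ∀ e ∈ Q.S 1, g e = Ms.bs V (Ms.slv C) a b hm hn hx e) {S : Co (Tw G) 2 X}
    (hS : ∀ σ ∈ Q.S 2, S σ = ∑ j, cob K (Wv.ct (C j) (Ms.zc K (V.T j).be)) σ • Ms.jb V x b j) :
    CI Q (B ⊔ m * I) (cur g - S) := fun σ hσ => by
  have e1 := Ms.cur_bs (hm := hm) (hn := hn) (hx := hx) hN ((hB.sup hI).inf hm) Nm inf_le_right h ha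
    hb (hM 2 hσ) fun i l q j hj => ⟨hT _ (e2_mem _ hσ q) j hj,
      ⟨(ja j).mono le_sup_left, ja_m hx (ha j)⟩, (jb j).mono le_sup_right, jb_m hx (hb j)⟩
  have l : N * N * N ⊔ m * ((B ⊔ I) ⊓ m) ≤ B ⊔ m * I := by
    refine sup_le (le_sup_of_le_left NB) ((Ideal.mul_mono_right inf_le_left).trans ?_)
    rw [Ideal.mul_sup]
    exact sup_le_sup_right Ideal.mul_le_right _
  refine In.eq (In.add (e1.mono l) ((In.sum (s := Finset.univ) fun j _ => (ja j).ksmul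
    (cob K (Wv.ct (C j) (Ms.zc K (V.T j).al)) σ)).mono le_sup_left)) ?_
  rw [Pi.sub_apply, cur_congr hg hσ, hS σ hσ, cob_jp hC, Finset.sum_add_distrib]
  abel

end core

section slot
open En Pt Wn Nv Crest.Agent.N255.Lv

variable {ι S : Type} [DecidableEq ι] [MulAction (FreeGroup ι) S] {w : Wl ι S}
  {F : Subgroup (FreeGroup ι)} [MulAction F X] {L : Lev w F X} {M : Md w} {ε R₀ R l r : ℝ}
  {e e' : Ed ι} {o : Bool} {g : Cn G X} {a b : (Tw G)ˣ}

theorem win_rev (e : Ed ι) (l r : ℝ) : win (L.s (rev e)) (1 - r) (1 - l) = win (L.s e) l r := by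
  ext y
  simp only [win, mem_ofPred_eq, L.s_rev]
  constructor <;> rintro ⟨_, _⟩ <;> constructor <;> linarith

theorem fw_rev (e : Ed ι) (l r R : ℝ) :
    fw (L.s (rev e)) L.r (1 - r) (1 - l) R = fw (L.s e) L.r l r R := by
  ext y
  simp only [fw, mem_ofPred_eq, L.s_rev]
  constructor <;> rintro ⟨_, _, _⟩ <;> refine ⟨‹_›, ?_, ?_⟩ <;> linarith

/-- the commutator for both orientations -/
theorem cm_or [T2Space X] {Or : Ori K 3 X} {u : Kˣ} (he : e' = if o then e else rev e)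
    (hd : L.Deg M Or u) (hB : L.Big ε R₀) (hε : 0 < ε) (h0 : ε ≤ l) (h1 : l < r) (h2 : r ≤ 1 - ε)
    (hP : (L.Sb (win (L.s e) l r)).Le P) {hm : G.Id m} (hn : IsNilpotent m) (hI : G.Id I)
    (ha : a ∈ U hm) (hb : b ∈ U hm)
    (hg : ∀ σ ∈ (L.Sb (fw (L.s e) L.r l r R)).S 1, g σ = L.gs0 M R₀ e' a b σ)
    (h : CU P hm g) (f : CI P I (cur g)) : In (m * I) (a.val * b.val - b.val * a.val) := by
  cases o
  · obtain rfl : e' = rev e := he
    exact Lev.cm_mem' (l := 1 - r) (r := 1 - l) (R := R) hd hB hε (by linarith) (by linarith)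
      (by linarith) (by rwa [win_rev]) hn hI ha hb (by rwa [fw_rev]) h f
  · obtain rfl : e' = e := he
    exact Lev.cm_mem' hd hB hε h0 h1 h2 hP hn hI ha hb hg h f

/-- **the far part of a zone in a wall** -/
theorem far_slot [T2Space X] {Or : Ori K 3 X} {u : Kˣ} (he : e' = if o then e else rev e)
    (hd : L.Deg M Or u) (hB : L.Big ε R₀) (hε : 0 < ε) (h0 : ε ≤ l) (h1 : l < r) (h2 : r ≤ 1 - ε)
    (hP : (L.Sb (win (L.s e) l r)).Le P) {hm : G.Id m} (hn : IsNilpotent m) (hI : G.Id I)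
    (ha : a ∈ U hm) (hb : b ∈ U hm) (hQ : (L.Sb (fw (L.s e) L.r l r R)).Le Q)
    (hL : Q.Le (L.Lb R₀ (w.T e))) (hg : ∀ σ ∈ Q.S 1, g σ = L.gs0 M R₀ e' a b σ)
    (h : CU P hm g) (f : CI P I (cur g)) : CI Q (m * I) (cur g) :=
  Lev.cur_gs0 (hm.mul hI) (cm_or he hd hB hε h0 h1 h2 hP hn hI ha hb (fun σ hσ => hg σ (hQ 1 hσ)) h f)
    (e := e') (by
      cases o
      · rw [show e' = rev e from he, w.T_rev]; exact hL
      · rw [show e' = e from he]; exact hL) hg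

end slot

namespace Gz

variable {κ α ι' : Type} [Fintype α] {Y : Gz K X κ α ι'} {g : Cn G X} {ε : α → Tw G} {k : κ}

/-- **`f0` for the core zone** -/
theorem far0 {t : Fin 3 → Bool} {V : Vt K X t} {C : Fin 3 → Set X} {x a b : Fin 3 → (Tw G)ˣ}
    {hm : G.Id m} {hn : IsNilpotent m} {hx : ∀ j, x j ∈ U hm} (hk : Y.pos k = 0)
    (hC : Pairwise fun i j => Disjoint (C i) (C j)) (hB : G.Id B) (hN : G.Id N) (Nm : N ≤ m)
    (NB : N * N * N ≤ B) (h : ∀ j, x j ∈ U hN) (ha : ∀ j, a j ∈ U hm) (hb : ∀ j, b j ∈ U hm)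
    (ja : ∀ j, In B (Ms.ja V x a j)) (jb : ∀ j, Ms.jb V x b j = 0 ∨ ∃ i, Ms.jb V x b j = ε i)
    (hM : Q.Le V.M.P) (hT : ∀ e ∈ Q.S 1, ∀ j, Ms.slv C e = some j → e ∈ (V.T j).P.S 1)
    (hg : ∀ e ∈ Q.S 1, g e = Ms.bs V (Ms.slv C) a b hm hn hx e)
    (hS : ∀ σ ∈ Q.S 2, lin Y.q ε σ =
      ∑ j, cob K (Wv.ct (C j) (Ms.zc K (V.T j).be)) σ • Ms.jb V x b j) :
    CI Q (B ⊔ m * Y.Iz g ε k) (Y.f g ε) :=
  far_core hC hB (id_Iz k) hN Nm NB h ha hb ja (fun j => (jb j).elim (fun q => q ▸ in_zero)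
    fun ⟨_, q⟩ => q ▸ in_eps_Iz (hk ▸ Nat.zero_le _)) hM hT hg hS

open En Pt Wn Nv Crest.Agent.N255.Lv in
/-- **`f0` and `f1` for the zones of a wall** -/
theorem far1 {ι S : Type} [DecidableEq ι] [MulAction (FreeGroup ι) S] {w : Wl ι S}
    {F : Subgroup (FreeGroup ι)} [MulAction F X] {L : Lev w F X} {M : Md w} {ε₀ R₀ R l r : ℝ}
    {e e' : Ed ι} {o : Bool} {a b : (Tw G)ˣ} [T2Space X] {Or : Ori K 3 X} {u : Kˣ}
    (loc : ∀ i, Y.pa i < Y.pos k → Y.q i ∈ (Y.P k).van K K 2) (he : e' = if o then e else rev e)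
    (hd : L.Deg M Or u) (hB : L.Big ε₀ R₀) (hε : 0 < ε₀) (h0 : ε₀ ≤ l) (h1 : l < r) (h2 : r ≤ 1 - ε₀)
    (hP : (L.Sb (win (L.s e) l r)).Le (Y.P k)) {hm : G.Id m} (hn : IsNilpotent m)
    (ha : a ∈ U hm) (hb : b ∈ U hm) (hQ : (L.Sb (fw (L.s e) L.r l r R)).Le Q)
    (hL : Q.Le (L.Lb R₀ (w.T e))) (hg : ∀ σ ∈ Q.S 1, g σ = L.gs0 M R₀ e' a b σ)
    (h : CU (Y.P k) hm g) (hS : ∀ σ ∈ Q.S 2, lin Y.q ε σ = 0) :
    CI Q (m * Y.Iz g ε k) (Y.f g ε) := fun σ hσ => by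
  rw [f, Pi.sub_apply, hS σ hσ, sub_zero]
  exact far_slot he hd hB hε h0 h1 h2 hP hn (id_Iz k) ha hb hQ hL hg h (ci_cur loc) σ hσ

end Gz

end Crest.Agent.N255.Lz

end
end

-- ▼ part N255/Vf/Far
section

/-!
# Row 255 (helper85): the far facts `f0`, `f1` of the vertex family
-/

set_option autoImplicit false
open Set Sum

noncomputable section

namespace Crest.Agent.N255.Ma.Vd
open Tp Nv Pt Lv En Wn Le Cs Cs.Tw _root_.N255.Core _root_.N255.Dr _root_.N255.Dr.O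

variable {F : Subgroup F3} {S : Type} [MulAction F3 S] {X : Type} [TopologicalSpace X]
  [MulAction F X] [ContinuousConstSMul F X] {p : ℕ} [Fact p.Prime] {J : Fin 3 → Type}
  [∀ i, Fintype (J i)] {g : Geo F (ZMod p) S X} {u R₀ : ℝ} {n : ℕ} {τ : ∀ i, Ty (J i)} {v : F3}
  {h o : Fin 3 → Bool} (D : Vd g u R₀ n τ v h o) {K : Set X} {R : ℝ}

theorem C_disj85 : Pairwise fun i j => Disjoint (D.C i) (D.C j) := fun _ _ e =>
  disjoint_left.2 fun _ hx => Vl.hi_compl e (D.c_pos _).le (D.c_pos _).le hx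

theorem jb_eq (i : Fin 3) :
    Ms.jb D.V0 (xM p J o) D.bV i = if o i then xV p ⟨i, inr false⟩ else 0 := by
  unfold Ms.jb bV
  split_ifs with e
  · rw [val_un, la]; abel
  · rw [xM, show o i = false by simpa using e, sub_self]

theorem ja_XV85 (i : Fin 3) : In D.XV (Ms.ja D.V0 (xM p J o) (aV p J) i) :=
  Ideal.mem_sup_left (Gr.mem_sp ⟨i, rfl⟩)

theorem zs_core85 (z : D.Ix) : D.L.zs z ⊆ Vc.core D.L.s fun _ => 1 - u := fun _ hx i =>
  (show D.L.s i _ < D.L.r i from Vz.Lv.zs_lo z i hx).trans_le (D.r_le i n)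

theorem Fz_le85 (z : D.Ix) :
    (D.Fz K z).Le ((g.E.toLev.Sb (Vc.core D.L.s fun _ => 1 - u)).inf (On Kᶜ)) :=
  fun _ _ q => ⟨⟨q.1.1.trans (D.zs_core85 z), q.1.2⟩, q.2⟩

variable {D}

theorem Off.ct (O : D.Off K R) (i : Fin 3) (j : J i) :
    D.qa ⟨i, inl j⟩ ∈ (On Kᶜ).van (ZMod p) (ZMod p) 2 := Sb.cob_mem (O.cx i (inl j))

theorem Off.ew (O : D.Off K R) (i : Fin 3) :
    D.ew i - Wv.ct (D.C i) (Ms.zc (ZMod p) (D.V0.T i).be) ∈ (On Kᶜ).van (ZMod p) (ZMod p) 1 :=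
  fun σ hσ => by
    have e : (D.ω i).η σ = 0 := neg_eq_zero.1 (O.cx i (inr false) σ hσ)
    have e' : (D.ω i).xw σ = Ms.zc (ZMod p) (D.V0.T i).be σ := by
      rw [Wd.xw, Pi.sub_apply, e, sub_zero]
      exact (Lev.mz_cast (ZMod p) σ).symm
    simp only [Vd.ew, Pi.sub_apply, Ms.ct_apply, e', sub_self]

/-- off `K` the sources are the coboundaries of the jumps on `be` -/
theorem Off.src (O : D.Off K R) (K' : Set X) (ρ : D.Ix → Ch (ZMod p) 4 X) {σ : Sx 2 X}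
    (hσ : σ ∈ (On Kᶜ).S 2) : Lz.lin (D.Y K' ρ).q D.ε σ = ∑ j, cob (ZMod p)
      (Wv.ct (D.C j) (Ms.zc (ZMod p) (D.V0.T j).be)) σ • Ms.jb D.V0 (xM p J o) D.bV j := by
  have e1 : ∀ i j, D.qa ⟨i, inl j⟩ σ • xV p (⟨i, inl j⟩ : Cl3 J) = 0 := fun i j => by
    rw [O.ct i j σ hσ, zero_smul]
  have e2 : ∀ i, D.qa ⟨i, inr true⟩ σ • xV p (⟨i, inr true⟩ : Cl3 J) = 0 := fun i => by
    simp [qa, pq]
  have e3 : ∀ i, D.qa ⟨i, inr false⟩ σ • xV p (⟨i, inr false⟩ : Cl3 J) = cob (ZMod p)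
      (Wv.ct (D.C i) (Ms.zc (ZMod p) (D.V0.T i).be)) σ • Ms.jb D.V0 (xM p J o) D.bV i := fun i => by
    rw [jb_eq]
    split_ifs with e
    · have := Sb.cob_mem (O.ew i) σ hσ
      rw [map_sub, Pi.sub_apply, sub_eq_zero] at this
      simp [qa, pq, e, this]
    · simp [qa, pq, e]
  refine (Fintype.sum_of_injective Subtype.val Subtype.val_injective _
    (fun q : Cl3 J => D.qa q σ • xV p q) ?_ fun _ => rfl).trans ?_
  · rintro ⟨i, j | _ | _⟩ hq
    · exact e1 i j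
    · have : o i = false := by
        by_contra c
        exact hq ⟨⟨⟨i, inr false⟩, by simp [Ty.kb, c]⟩, rfl⟩
      simp [qa, pq, this]
    · exact e2 i
  · simp only [Fintype.sum_sigma, Fintype.sum_sum_type, Fintype.sum_bool, e1, e2, e3,
      Finset.sum_const_zero, zero_add]

variable [T2Space X] (O : D.Off K R) (ρ : D.Ix → Ch (ZMod p) 4 X)
include O

/-- the far part of a zone of a wall -/
theorem Off.f_slot (i : Fin 3) (z : Fin (D.L.n + 1)) : CI (D.Fz K (some (i, z)))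
    (mx * (D.Y K ρ).Iz D.GV D.ε (some (i, z))) (D.f K ρ) := by
  have h0 : u ≤ D.L.l i z := (Vl.u_lt (D.ω i) z).le
  have h2 : D.L.ub i z ≤ 1 - u := Vz.Lv.ub_le.trans (D.r_le i n)
  have hC : D.L.zs (some (i, z)) ⊆ D.C i :=
    Vz.Lv.zs_hi.trans (hi_mono ((D.cl i).le.trans (Vl.l_le _ (Nat.zero_le _))))
  refine Lz.Gz.far1 (Y := D.Y K ρ) (e := st v h i) (e' := Sg.em v h o i) (o := o i) (R := R)
    (a := aV p J i) (b := D.bV i) (fun a ha => D.src.q_van a ha.ne') rfl g.deg (D.ω 0).big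
    (D.ω 0).u0 h0 ((Vz.Lv.l_lt (Nat.lt_add_of_pos_right two_pos)).trans_le (Vz.Lv.le_ub le_rfl)) h2
    (fun _ _ q => q) Tg.mx_nil (uV_U p _) (D.bV_U i)
    (fun _ _ q => ⟨⟨fun _ hx => (q.1 hx).2, q.2⟩, q.1.trans (g.E.toLev.fw_off O.rad _)⟩)
    (fun m σ q => Lev.T_ek (w := g.w) (e := Sg.em v h o) (fun _ => rfl) i ▸
      O.wl i m ⟨⟨q.1.1.trans (win_mono h0 h2), q.1.2⟩, q.2⟩)
    (fun σ q => (O.G σ q.2).trans (Ms.bs_some (Ms.slv_in D.C_disj85 (q.1.1.trans hC))))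
    (D.fam.cu _) fun σ q => Lz.lin_zero (fun a => ?_) _ q
  obtain ⟨j, l, e, -⟩ | ⟨j, e, -⟩ := a.cases
  · rw [Y_q, e]; exact Sb.van_mono Sb.inf_le_right (O.ct j l)
  · refine Sb.van_mono Sb.inf_le_left ?_
    have t : D.src.t a = D.c j := by show D.tq a.1 = _; rw [e]; rfl
    have s : D.src.sl a = j := by show a.1.1 = _; rw [e]
    by_cases c : i = j
    · exact D.src.q_hi a (by rw [t, s, ← c]; exact hC)
    · exact D.src.q_lo a (by
        rw [t, s]; exact Vz.Lv.zs_hi.trans (Vz.Lv.hi_lo c Vz.Lv.l_pos.le (D.c_pos j).le))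

omit [T2Space X] in
/-- the far part of the core zone -/
theorem Off.f_core {z : D.Ix} (hz : (D.Y K ρ).pos z = 0) :
    CI (D.Fz K z) (D.XV ⊔ mx * (D.Y K ρ).Iz D.GV D.ε z) (D.f K ρ) :=
  Lz.Gz.far0 (hm := G2_mx p J) (hn := Tg.mx_nil) (hx := xM_U p o) hz D.C_disj85 D.id_XV (id_NV p o)
    (NV_le p o) le_sup_right (xM_N p o) (fun _ => uV_U p _) D.bV_U D.ja_XV85
    (fun j => by
      rw [jb_eq]
      split_ifs with e
      exacts [.inr ⟨⟨⟨j, inr false⟩, by simp [Ty.kb, e]⟩, rfl⟩, .inl rfl])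
    ((D.Fz_le85 z).trans O.pv) (fun e q j => O.sl j e (D.Fz_le85 z 1 q)) (fun e q => O.G e q.2)
    fun _ q => O.src K ρ q.2

omit [T2Space X] in
/-- **`f0` of `Gz.Ok.vx`** -/
theorem Off.f0 (z : D.Ix) (hz : (D.Y K ρ).pos z = 0) :
    CI (D.Fz K z) (Ideal.span (range D.bX) ⊔ mx * (D.Y K ρ).Iz D.GV D.ε z) (D.f K ρ) :=
  D.span_bX ▸ O.f_core ρ hz

/-- **`f1` of `Gz.Ok.vx`** -/
theorem Off.f1 (z : D.Ix) (hz : 0 < (D.Y K ρ).pos z) :
    CI (D.Fz K z) (mx * (D.Y K ρ).Iz D.GV D.ε z) (D.f K ρ) := by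
  rcases z with _ | ⟨i, z⟩
  exacts [absurd hz (lt_irrefl 0), O.f_slot ρ i z]

end Crest.Agent.N255.Ma.Vd

end
end

-- ▼ part N255/Vf/Zall
section

/-!
# Row 255 (helper86): the located ideals of a vertex, all hypotheses discharged
-/

set_option autoImplicit false
open Set Module Sum

noncomputable section

namespace Crest.Agent.N255.Ma.Vd
open Tp Nv Pt Lv En Wn Le Cs Cs.Tw _root_.N255.Core _root_.N255.Dr _root_.N255.Dr.O

variable {F : Subgroup F3} {S : Type} [MulAction F3 S] {X : Type} [TopologicalSpace X]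
  [MulAction F X] [ContinuousConstSMul F X] {p : ℕ} [Fact p.Prime] {J : Fin 3 → Type}
  [∀ i, Fintype (J i)] {g : Geo F (ZMod p) S X} {u R₀ : ℝ} {n : ℕ} {τ : ∀ i, Ty (J i)} {v : F3}
  {h o : Fin 3 → Bool} {D : Vd g u R₀ n τ v h o} {K : Set X} {R : ℝ}
  {σ : Fin 3 → Ch (ZMod p) 3 X} [T2Space X] [ChartedSpace (EE 4) X]

/-- **the located ideals of the vertex region** -/
theorem Off.Z_ok (O : D.Off K R) (hs : ∀ i, (D.ω i).Sig R (σ i)) (r : D.Rc K R σ) :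
    (D.Z K r.ρ).Ok :=
  Vd.Z_ok (O.Y_ok hs r) (D.nf' K r.ρ) (fun _ q => O.f_core r.ρ q) fun k q => O.f1 r.ρ k q

end Crest.Agent.N255.Ma.Vd

end
end

-- ▼ part N255/Vf/Agr
section

/-!
# Row 255 (helper10): the base point and the sources of the vertex family on a wall
-/

set_option autoImplicit false
open Set Sum

noncomputable section

namespace Crest.Agent.N255.Ma
open Tp Nv Pt Lv En Wn Le Cs Cs.Tw _root_.N255.Dr _root_.N255.Dr.O

variable {F : Subgroup F3} {S : Type} [MulAction F3 S] {X : Type} [TopologicalSpace X]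
  [MulAction F X] [ContinuousConstSMul F X]

section wall
variable {k : Type} [Field k] {g : Geo F k S X} {u R₀ : ℝ} {n : ℕ} {J : Type} [Fintype J] {τ : Ty J}
  {e : Ed (Fin 3)} {o : Bool}

/-- a cut class is closed on its big side -/
theorem Wd.cob_ct_B (ω : Wd g u R₀ n τ e o) (j : J) :
    cob k (ω.ct j) ∈ (On (ω.B (τ.kd j == o) (τ.sc j + 1))).van k k 2 :=
  Sb.mem_Z.1 (by simpa [Wd.ct] using add_mem (Sb.van_le_Z (Wv.ct_sub (a := ω.h j))) (ω.mem j).2)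

/-- the holonomy class of an `M` slot is closed beyond `a` -/
theorem Wd.xw_Z_M (ω : Wd g u R₀ n τ e o) (h : o = true) :
    ω.xw ∈ (g.E.toLev.Sb (hi (g.E.s e) ω.a)).Z k k 1 := by
  subst h
  simpa [Wd.xw, Wv.lo_rv] using ω.bz.cl

theorem Wd.Wr_le (ω : Wd g u R₀ n τ e o) : ω.Wr.Le (g.E.toLev.Sb (hi (g.E.s e) (ω.l 2))) :=
  fun _ _ hσ => ⟨hσ.2, hσ.1.2⟩

end wall

namespace Vd

section scalar
variable {J : Fin 3 → Type} [∀ i, Fintype (J i)] {k : Type} [Field k] {g : Geo F k S X} {u R₀ : ℝ}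
  {n : ℕ} {τ : ∀ i, Ty (J i)} {v : F3} {h o : Fin 3 → Bool} (D : Vd g u R₀ n τ v h o)

theorem l_nn (i : Fin 3) (m : ℕ) : 0 ≤ (D.ω i).l m := ((D.ω i).u0.trans (Vl.u_lt _ m)).le

theorem C_dis : Pairwise fun i j => Disjoint (D.C i) (D.C j) := fun _ _ e =>
  disjoint_left.2 (Vl.hi_compl e (D.c_pos _).le (D.c_pos _).le)

theorem hi_C (i : Fin 3) (m : ℕ) : hi (D.s i) ((D.ω i).l m) ⊆ D.C i :=
  hi_mono ((D.cl i).le.trans (Vl.l_le _ m.zero_le))

/-- foreign sources vanish on a wall -/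
theorem qa_out {q : Cl3 J} {i : Fin 3} (e : q.1 ≠ i) : D.qa q ∈ (On (hi (D.s i) 0)).van k k 2 := by
  obtain ⟨i', j | c⟩ := q
  · by_cases a : (τ i').kd j = o i'
    · refine van_mono ?_ ((D.ω i').cob_ct_B j)
      rw [Vl.B_near a]
      exact Vl.hi_lo (Ne.symm e) (by simpa using (Vl.r_pos _ _).le)
    · exact Sb.cob_mem (van_mono (Vl.hi_compl (Ne.symm e) le_rfl (D.l_nn _ 0))
        (Vl.ct_far a (Nat.zero_le _)))
  · refine Sb.cob_mem (?_ : D.pq ⟨i', inr c⟩ ∈ _)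
    simp only [pq, elim_inr]
    split_ifs
    · exact van_mono (Vl.hi_compl (Ne.symm e) le_rfl (D.c_pos _).le) Wv.ct_van
    · exact zero_mem _

/-- the source of the holonomy vanishes beyond the cut -/
theorem qa_w (i : Fin 3) (c : Bool) : D.qa ⟨i, inr c⟩ ∈ (g.E.toLev.Sb (D.C i)).van k k 2 := by
  refine Sb.mem_Z.1 (?_ : D.pq ⟨i, inr c⟩ ∈ _)
  simp only [pq, elim_inr]
  split_ifs with a
  · simpa [ew] using add_mem (Sb.van_le_Z (Sb.van_mono Sb.inf_le_left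
      (Wv.ct_sub (C := D.C i) (a := (D.ω i).xw)))) (Sb.Z_mono
        (SB_mono (hi_mono (D.ac i).le)) ((D.ω i).xw_Z_M a.2))
  · exact zero_mem _

theorem lx_own (i : Fin 3) (j : J i) (x : J i ⊕ Bool) : D.lin.lx i j ⟨i, x⟩ = 0 :=
  by_contra fun a => (D.lin.tf i j _ a).1 rfl

/-- the targets of the transfer are closed on the wall -/
theorem lx_cob {i : Fin 3} {j : J i} {q : Cl3 J} (a : D.lin.lx i j q ≠ 0) :
    cob k ((D.ω i).ct j) ∈ (On (hi (D.s i) ((D.ω i).l 1))).van k k 2 := by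
  obtain ⟨-, a1, a2, -⟩ := D.lin.tf i j q a
  have := (D.ω i).cob_ct_B j
  rwa [Vl.B_far a1, a2] at this

end scalar

variable {p : ℕ} [Fact p.Prime] {J : Fin 3 → Type} [∀ i, Fintype (J i)]
  {g : Geo F (ZMod p) S X} {u R₀ : ℝ} {n : ℕ} {τ : ∀ i, Ty (J i)} {v : F3}
  {h o : Fin 3 → Bool} (D : Vd g u R₀ n τ v h o) {i : Fin 3}

/-- beyond the cut the base is the base of the wall -/
theorem G0_slot {e : Sx 1 X} (he : range e ⊆ D.C i) : D.G0 e = (D.ω i).g0 (aV p J i) (D.bV i) e :=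
  Ms.bs_some (Ms.slv_in D.C_dis he)

/-- the linear part on a wall -/
theorem src_cG {e : Sx 1 X} (he : e ∈ (g.E.toLev.Sb (hi (D.s i) ((D.ω i).l 2))).S 1) :
    Lp.src D.lin.cG D.xG e = Lp.src (D.ω i).cx (fun x => D.xG ⟨i, x⟩) e +
      Lp.src (D.ω i).ct (D.tf i) e := by
  have e1 : Lp.src (D.ω i).ct (D.tf i) e =
      ∑ q, (∑ j, D.lin.lx i j q • (D.ω i).ct j) e • D.xG q := by
    simp only [Lp.src, tf, Finset.smul_sum, Finset.sum_apply, Finset.sum_smul, Pi.smul_apply,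
      smul_eq_mul, smul_smul]
    rw [Finset.sum_comm]
    simp only [mul_comm]
  rw [e1, ← sub_eq_iff_eq_add, Lp.src, ← Finset.sum_sub_distrib, Fintype.sum_sigma,
    Finset.sum_eq_single i (fun i' _ a => Finset.sum_eq_zero fun x _ => by
      rw [← sub_smul, ← Pi.sub_apply, D.lin.agr i ⟨i', x⟩ a e he, zero_smul]) (by simp), Lp.src]
  refine Finset.sum_congr rfl fun x _ => ?_
  have := D.lin.own i x e (he.1.trans (D.hi_C i 2))
  rw [Pi.sub_apply, sub_eq_zero] at this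
  simp [lx_own, this]

/-- the sources on a wall -/
theorem SG_wall {σ : Sx 2 X} (hσ : σ ∈ (g.E.toLev.Sb (D.C i)).S 2) :
    D.SG σ = Lp.src (fun j => cob (ZMod p) ((D.ω i).ct j)) (fun j => xV p ⟨i, inl j⟩) σ := by
  rw [SG, Lp.src, Fintype.sum_sigma, Finset.sum_eq_single i (fun i' _ a =>
    Finset.sum_eq_zero fun x _ => by
      rw [D.qa_out (q := ⟨i', x⟩) a σ (hσ.1.trans (hi_mono (D.c_pos i).le)), zero_smul]) (by simp),
    Fintype.sum_sum_type, Finset.sum_eq_zero (s := Finset.univ) fun (c : Bool) _ => by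
      rw [D.qa_w i c σ hσ, zero_smul], add_zero]
  rfl

theorem cob_tf {σ : Sx 2 X} (hσ : range σ ⊆ hi (D.s i) ((D.ω i).l 1)) :
    Lp.src (fun j => cob (ZMod p) ((D.ω i).ct j)) (D.tf i) σ = 0 :=
  Finset.sum_eq_zero fun j _ => by
    rw [tf, Finset.smul_sum]
    refine Finset.sum_eq_zero fun q _ => ?_
    by_cases a : D.lin.lx i j q = 0
    · rw [a, zero_smul, smul_zero]
    · exact smul_eq_zero_of_left (D.lx_cob a σ hσ) _

variable {io : OU p (J i) →ₐ[ZMod p] OV p J} (hom : (GU p (J i)).Hom (G2 p J) io)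
  (ha : um hom (uv p (inr true)) = aV p J i) (hb : um hom (uv p (inr false)) = D.bV i)
include ha hb

/-- **the base points on a wall** -/
theorem G1_sb {e : Sx 1 X} (he : e ∈ (g.E.toLev.Sb (hi (D.s i) ((D.ω i).l 2))).S 1) :
    Cs.dif D.G1 (mp hom (D.ω i).g1) e = Lp.src (D.ω i).ct
      (fun j => xV p ⟨i, inl j⟩ + D.tf i j - Tw.map hom (xv p (inl j))) e := by
  have e1 : Tw.map hom ((D.ω i).g0 (uv p (inr true)) (uv p (inr false)) e).val =
      ((D.ω i).g0 (aV p J i) (D.bV i) e).val := by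
    rw [← val_um, Wd.g0, map_mul, map_zpow, map_zpow, ha, hb, Wd.g0]
  have e2 : Tw.map hom (xv p (inr false)) = (D.bV i).val - 1 := by
    rw [← uv_sub, map_sub, map_one, ← val_um, hb]
  have e3 : ((D.ω i).g1 e).val = ((D.ω i).g0 (uv p (inr true)) (uv p (inr false)) e).val +
      Lp.src (D.ω i).cx (xv p) e := Lp.val_pl e
  rw [Cs.dif, G1, Lp.val_pl, mp, val_um, e3, map_add, e1, Lp.map_src,
    D.G0_slot (he.1.trans (D.hi_C i 2)), D.src_cG he]
  simp [Lp.src, Fintype.sum_sum_type, Wd.cx, xG, e2, smul_sub, Finset.sum_add_distrib,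
    Finset.sum_sub_distrib]
  abel

/-- **the sources on a wall** -/
theorem SG_sb {σ : Sx 2 X} (hσ : σ ∈ (g.E.toLev.Sb (hi (D.s i) ((D.ω i).l 2))).S 2) :
    (D.SG - Lp.mc hom (D.ω i).Sr - cob (ZMod p) (Cs.dif D.G1 (mp hom (D.ω i).g1))) σ = 0 := by
  have e1 := Sb.cob_mem (k := ZMod p) (P := g.E.toLev.Sb (hi (D.s i) ((D.ω i).l 2)))
    (φ := Cs.dif D.G1 (mp hom (D.ω i).g1) - Lp.src (D.ω i).ct
      (fun j => xV p ⟨i, inl j⟩ + D.tf i j - Tw.map hom (xv p (inl j))))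
    (fun e he => sub_eq_zero.2 (D.G1_sb hom ha hb he)) σ hσ
  have e2 := D.cob_tf (hσ.1.trans (hi_mono (Vl.l_le _ one_le_two)))
  rw [map_sub, Pi.sub_apply, sub_eq_zero, Lp.cob_src] at e1
  rw [Pi.sub_apply, Pi.sub_apply, e1, D.SG_wall ⟨hσ.1.trans (D.hi_C i 2), hσ.2⟩, Lp.mc, Wd.Sr,
    Lp.map_src]
  simp only [Lp.src, smul_sub, smul_add, Finset.sum_add_distrib, Finset.sum_sub_distrib] at e2 ⊢
  rw [e2]; abel

theorem G1_agr : ∀ e ∈ (D.ω i).Wr.S 1, Cs.dif D.G1 (mp hom (D.ω i).g1) e = Lp.src (D.ω i).ct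
    (fun j => xV p ⟨i, inl j⟩ + D.tf i j - Tw.map hom (xv p (inl j))) e :=
  fun _ he => D.G1_sb hom ha hb ((D.ω i).Wr_le 1 he)

theorem SG_agr : ∀ σ ∈ (D.ω i).Wr.S 2,
    (D.SG - Lp.mc hom (D.ω i).Sr - cob (ZMod p) (Cs.dif D.G1 (mp hom (D.ω i).g1))) σ = 0 :=
  fun _ hσ => D.SG_sb hom ha hb ((D.ω i).Wr_le 2 hσ)

end Vd

end Crest.Agent.N255.Ma

end
end

-- ▼ part N255/Vf/Cmx
section

/-!
# Row 255 (helper11): the comparison `Cmp` exists
-/

set_option autoImplicit false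
open Set Module Sum

noncomputable section

namespace Crest.Agent.N255.Ma.Vd
open Tp Nv Pt Lv En Wn Le Cs Cs.Tw Ku Lp Jt Io _root_.N255.Dr _root_.N255.Dr.O

variable {F : Subgroup F3} {S : Type} [MulAction F3 S] {X : Type} [TopologicalSpace X]
  [MulAction F X] [ContinuousConstSMul F X] {p : ℕ} [Fact p.Prime]
  {g : Geo F (ZMod p) S X} {u R₀ : ℝ} {n : ℕ}
  {J : Fin 3 → Type} [∀ i, Fintype (J i)] {τ : ∀ i, Ty (J i)} {v : F3} {h o : Fin 3 → Bool}
  (D : Vd g u R₀ n τ v h o)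

theorem cmx_le (i : Fin 3) (hn : 2 ≤ n) : ((D.ω i).Zb 2).Le (D.ω i).Wr := fun m _ hσ =>
  ⟨(D.ω i).Zb_anti (Nat.zero_le 2) m hσ,
    let ⟨_, hU, a⟩ := hσ.1
    a.trans ((zs_sub (D.ω i).lr hn hU).trans fun _ hx => hx.1)⟩

/-- the substitution before the correction -/
def cmx_phi (i : Fin 3) : OU p (J i) →ₐ[ZMod p] OV p J :=
  sub (fun x => (G2 p J).pr x.2 (Tw.o _ (D.xG ⟨i, x.1⟩))) fun _ => G2_mx p J _ _ (D.xG_in _)

theorem cmx_um {i : Fin 3} {io : OU p (J i) →ₐ[ZMod p] OV p J} (hom : (GU p (J i)).Hom (G2 p J) io)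
    {x : J i ⊕ Bool} (e : ∀ γ, io (z (x, γ)) = D.cmx_phi i (z (x, γ))) :
    (um hom (uv p x)).val = 1 + D.xG ⟨i, x⟩ := by
  rw [val_um, eq_add_of_sub_eq' (uv_sub p x), map_add, map_one]
  congr 1
  refine (Tw.o _).injective ((G2 p J).ext fun γ => ?_)
  rw [o_map, ← hom, pr_xv, e, cmx_phi, sub_z]

theorem cmx_slot (i : Fin 3) : ∃ (io : OU p (J i) →ₐ[ZMod p] OV p J)
    (hom : (GU p (J i)).Hom (G2 p J) io), um hom (uv p (inr true)) = aV p J i ∧
      um hom (uv p (inr false)) = D.bV i ∧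
      (∀ j, In (Jl p (ZMod p) (YW2 p J))
        (Tw.map hom (xv p (inl j)) - xV p ⟨i, inl j⟩ - D.tf i j)) ∧
      (∀ j, In (mx ^ ((τ i).sc j - 2)) (Tw.map hom (xv p (inl j)) - xV p ⟨i, inl j⟩ - D.tf i j)) ∧
      CI (D.ω i).Pc (mx ^ (n - 2)) (Cs.dif D.GV (mp hom (D.ω i).gU)) := by
  have sG : ∀ σ, In mx (D.SG σ) := src_in (xV_in p)
  obtain ⟨io, hom, hm, hφ, hd⟩ := exists_io (G := G2 p J) (m := mx) Tg.mx_nil (fun _ => pow_p)
    (GU_z p (J i)) (e := fun q : J i × Cs.Gm p => (inl q.1, q.2)) (fun _ => rfl)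
    (fun _ _ e => Prod.ext (inl_injective (Prod.mk.inj e).1) (Prod.mk.inj e).2) (D.cmx_phi i)
    (fun x => by rw [cmx_phi, sub_z]; exact ⟨(G2 p J).hg_pr _ _, G2_mx p J _ _ (D.xG_in _)⟩)
    (fun σ => ((D.ω i).nl_Jl σ).mono (sup_le (le_sup_of_le_right (Ideal.span_mono (image_mono (by
      rintro ⟨_, γ⟩ ⟨c, rfl⟩ ⟨q, e⟩; cases e)))) le_sup_left))
    (D.fam.nl_in sG) (G2_mx p J) (D.ω i).lam (D.vf.mu i)
    (T := fun j => xV p ⟨i, inl j⟩ + D.tf i j) fun j => In.add (xV_in p _)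
      (In.sum fun q (_ : q ∈ Finset.univ) => in_smul _ (D.xG_in q))
  have hc : ∀ c γ, io (z (inr c, γ)) = D.cmx_phi i (z (inr c, γ)) := fun c γ =>
    hφ _ (by rintro ⟨q, e⟩; cases e)
  have ha : um hom (uv p (inr true)) = aV p J i :=
    Units.ext ((D.cmx_um hom (hc true)).trans (eq_add_of_sub_eq' (uV_sub p _)).symm)
  have hb : um hom (uv p (inr false)) = D.bV i :=
    Units.ext ((D.cmx_um hom (hc false)).trans (add_sub_cancel _ _))
  have e1 : ∀ j, Tw.map hom (xv p (inl j)) - xV p ⟨i, inl j⟩ - D.tf i j = -dl (D.ω i).lam (D.vf.mu i)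
      (mc hom (nl (ZMod p) (D.ω i).g1 (D.ω i).Sr (D.ω i).gU)) (nl (ZMod p) D.G1 D.SG D.GV) j :=
    fun j => by rw [← hd j, neg_sub, _root_.sub_sub]; rfl
  have FU := (D.ω i).fam.map (hm' := G2_mx p J) hom fun _ => map_mx io hm
  have hS : ∀ hn : 2 ≤ n, CI ((D.ω i).Zb 2) ⊥ (D.SG - mc hom (D.ω i).Sr -
      cob (ZMod p) (Cs.dif D.G1 (mp hom (D.ω i).g1))) := fun hn σ hσ =>
    in_bot.2 (D.SG_agr hom ha hb σ (D.cmx_le i hn 2 hσ))
  have cm : ∀ k, 2 + k ≤ n → CI ((D.ω i).Zb (2 + k)) (mx ^ (k + 1))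
      (Cs.dif D.GV (mp hom (D.ω i).gU)) := fun k hk => by
    have hn : 2 ≤ n := by omega
    have := Fam.cmp_hp (H := (D.ω i).H) (lam := (D.ω i).lam) (ct := (D.ω i).ct) (mu := D.vf.mu i) FU
      D.fam Tg.mx_nil (fun σ => in_map hom (fun _ => map_mx io hm)
        (src_in (fun _ => xv_in p _) σ)) sG (G2 p J).id_bot (Z := (D.ω i).Zb)
      (fun k => (D.ω i).Zb_anti k.le_succ) (a := 2) (b := n)
      (fun f => Sb.van_mono (D.cmx_le i hn) (D.vf.agr i f))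
      (fun k _ hk f hf => (((D.ω i).nf.fl2 k hk f hf).1)) (fun e he => in_bot.2 (by
        rw [Pi.sub_apply, D.G1_agr hom ha hb e (D.cmx_le i hn 1 he), ← mc_nl, sub_eq_zero]
        exact congrArg (fun t => Lp.src (D.ω i).ct t e) (funext hd))) (hS hn) hk
    rwa [bot_sup_eq] at this
  refine ⟨io, hom, ha, hb, fun j => e1 j ▸ In.neg (h1_of hom hm ha hb _ _ j), fun j => ?_, ?_⟩
  · by_cases hj : (τ i).sc j < 2
    · rw [Nat.sub_eq_zero_of_le hj.le, pow_zero, Ideal.one_eq_top]; trivial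
    · obtain ⟨k, hk⟩ := Nat.exists_eq_add_of_le (not_lt.1 hj)
      have hn := (D.ω i).sc_lt j
      have := dl_in (lam := (D.ω i).lam) (mu := D.vf.mu i) (j := j) ((G2_mx p J).pow (k + 1))
        (FU.cu _) (D.fam.cu _) (cm k (by omega))
        (ci_le (hS (by omega)) ((D.ω i).Zb_anti (Nat.le_add_right 2 k)))
        (by by_contra a; have := (D.vf.mu0 i j a).2; omega)
        fun f hf => ((D.ω i).nf.fl2 (2 + k) (by omega) f hf).2 j hk.ge
      rw [bot_sup_eq, ← pow_succ', ← mc_nl] at this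
      exact e1 j ▸ In.neg (this.mono (Ideal.pow_le_pow_right (by omega)))
  · by_cases hn : n < 2
    · rw [Nat.sub_eq_zero_of_le hn.le, pow_zero, Ideal.one_eq_top]; exact fun _ _ => trivial
    · exact ci_mono (ci_le (cm (n - 2) (by omega)) ((D.ω i).Pc_le _))
        (Ideal.pow_le_pow_right (by omega))

/-- **the comparison exists** -/
theorem nonempty_cmp : Nonempty D.Cmp := by
  choose io hom a b h1 h2 cmp using D.cmx_slot
  exact ⟨⟨io, hom, a, b, h1, h2, cmp⟩⟩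

end Crest.Agent.N255.Ma.Vd

end
end

-- ▼ part N255/Le/Vg
section
/-!
# Row 255 (helper71): the vertex parametrix for arbitrary wall data (`Vg`)
-/
namespace Crest.Agent.N255.Le
open Submodule Set Tp Module Wn

variable {k : Type} [Field k] {X : Type} [TopologicalSpace X] {cv : Set (Set X)}
  {ι : Type} {J : ι → Type} [∀ i, Fintype (J i)]

/-- normal forms `EG` and full parametrix `HG` of a vertex with core `O`, wall zones `𝒵 i`, wall
parametrices `Hp i`; agreement on the zones inside `B i` up to the classes `ct i j` with `far i j` -/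
structure Vg (cv : Set (Set X)) (O : Set X) (𝒵 : ι → Set (Set X)) (B : ι → Set X)
    (ct : ∀ i, J i → Co k 1 X) (far : ∀ i, J i → Prop) (Hp : ι → Co k 2 X →ₗ[k] Co k 1 X)
    (E : ι → Submodule k (Co k 2 X)) (HG : Co k 2 X →ₗ[k] Co k 1 X)
    (mu : ∀ i, J i → Dual k (Co k 2 X)) (EG : Submodule k (Co k 2 X)) : Prop where
  cc : ∀ f, HG f ∈ CC k X 1
  nf : ∀ f, f - cob k (HG f) ∈ EG
  core : ∀ e ∈ EG, ∀ θ ∈ CC k X 1, e - cob k θ ∈ vo k cv O 2 → e ∈ vo k cv O 2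
  zn : ∀ i, ∀ U ∈ 𝒵 i, ∀ e ∈ EG, ∀ θ ∈ CC k X 1, e - cob k θ ∈ vo k cv U 2 → e ∈ vo k cv U 2
  le : ∀ i, EG ≤ E i ⊔ vs k cv (𝒵 i) 2
  low : ∀ f ∈ vo k cv O 2, (∀ i, f ∈ vs k cv (𝒵 i) 2) → f ∈ EG
  zero : ∀ f ∈ vo k cv O 2, (∀ i, f ∈ vs k cv (𝒵 i) 2 ∧ Hp i f = 0) →
    HG f = 0 ∧ ∀ i j, mu i j f = 0
  agr : ∀ i f, ∀ U ∈ 𝒵 i, HG f - Hp i f - ∑ j, mu i j f • ct i j ∈ vo k cv (U ∩ B i) 1
  mu0 : ∀ i j, mu i j ≠ 0 → far i j


set_option maxHeartbeats 800000 in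
theorem exists_vg [Finite ι] (o : Ov cv) (h2 : Hc0 k X k 2) {s : ι → C(X, ℝ)} {a c b : ι → ℝ}
    (hac : ∀ i, a i < c i) (hcb : ∀ i, c i ≤ b i)
    (hd : Pairwise fun i j => Disjoint (hi (s i) (a i)) (hi (s j) (a j)))
    {𝒵 : ι → Set (Set X)} (op : ∀ i, ∀ U ∈ 𝒵 i, IsOpen U)
    (hU : ∀ i, ⋃₀ 𝒵 i = win (s i) (a i) (b i)) (hD : ∀ i, win (s i) (a i) (c i) ∈ 𝒵 i)
    {ct : ∀ i, J i → Co k 1 X} {far : ∀ i, J i → Prop} {Hp : ι → Co k 2 X →ₗ[k] Co k 1 X}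
    {E : ι → Submodule k (Co k 2 X)} (hc : ∀ i f, Hp i f ∈ CC k X 1)
    (hn : ∀ i f, f - cob k (Hp i f) ∈ E i)
    (s1 : ∀ i, ∀ U ∈ 𝒵 i, ∀ f ∈ E i, ∀ θ ∈ CC k X 1, f - cob k θ ∈ vo k cv U 2 → f ∈ vo k cv U 2)
    (sp : ∀ i, ∀ φ ∈ ZP k (hi (s i) (a i)) k 1, ∃ x : J i → k, (∀ j, x j ≠ 0 → far i j) ∧
      φ - ∑ j, x j • ct i j ∈ BP k (hi (s i) (c i)) k 1) :
    ∃ HG mu EG, Vg cv (⋂ i, lo (s i) (c i)) 𝒵 (fun i => hi (s i) (c i)) ct far Hp E HG mu EG := by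
  classical
  have := Fintype.ofFinite ι
  have par : ∀ i, Par (cob k) (CC k X 1) LinearMap.id (E i) (Hp i) := fun i => ⟨hc i, hn i⟩
  have hab : ∀ i, a i < b i := fun i => (hac i).trans_le (hcb i)
  have sep : ∀ {i j}, i ≠ j → ∀ {t}, a j < t → hi (s i) (a i) ⊆ lo (s j) t :=
    fun q t ht x hx => (not_lt.1 (Set.disjoint_left.1 (hd q) hx)).trans_lt ht
  have zw : ∀ i {U : Set X}, win (s i) (a i) (b i) ⊆ U → ∀ d, (On U).van k k d ≤
      vs k cv (𝒵 i) d := fun i U q d => (on_le q).trans (vo_le (hU i).le)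
  have W : Wal (cob k) (CC k X 1) LinearMap.id (fun _ => LinearMap.id)
      (fun i => vs k cv (𝒵 i) 2) fun i => vs k cv (𝒵 i) 1 :=
    ⟨by simp, fun _ _ q => q, fun i c hc => Sb.cob_mem hc, fun c hc =>
      let ⟨c0, h1, h2⟩ := glue hd hc; ⟨c0, h1, fun i => zw i win_hi _ (h2 i)⟩⟩
  have st : ∀ i, ∀ U ∈ 𝒵 i, St (cob k) (CC k X 1) LinearMap.id (⨅ i, E i ⊔ vs k cv (𝒵 i) 2)
      (vo k cv U 2) := fun i U hz => W.st (vs_le hz subset_rfl) (st_iff.2 (s1 i U hz))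
  have dc : ∀ i, win (s i) (a i) (c i) ⊆ ⋂ i, lo (s i) (c i) := fun i => by
    refine subset_iInter fun j => ?_
    by_cases q : i = j
    · subst q; exact win_lo
    · exact win_hi.trans (sep q (hac j))
  have ct' : Ct k cv (⋂ i, lo (s i) (c i)) (fun i => win (s i) (a i) (c i))
      (range fun i => hi (s i) (a i)) :=
    ct_of o h2 Finset.univ (fun i => hi (s i) (a i)) (fun i => lo (s i) (c i))
      (fun _ _ => isOpen_hi) (fun _ _ => isOpen_lo)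
      (fun i _ => (union_comm _ _).trans (lo_union_hi (hac i)))
      (fun i _ j _ q => sep q (hac j)) (fun i _ => ⟨subset_rfl, dc i⟩)
      (fun i _ => iInter_subset _ i) (by rintro _ ⟨i, rfl⟩; exact ⟨i, by simp, subset_rfl⟩)
  obtain ⟨EG, e1, e2, e3, e4⟩ := lemE (ι := Unit) (E0 := ⨅ i, E i ⊔ vs k cv (𝒵 i) 2)
    (B := ⨅ i, vs k cv (𝒵 i) 2) (R := (CC k X 1).map (LinearMap.id ∘ₗ cob k))
    (A := fun _ => vo k cv (⋂ i, lo (s i) (c i)) 2) (iInf_mono fun i => le_sup_right) (by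
      rintro - _ ⟨γ, hc, rfl⟩ hr
      obtain ⟨x, hx, α, ha, q⟩ := mem_sup.1 hr
      obtain ⟨c', q1, q2, q3⟩ := ct' γ hc fun i _ => by
        have : x ∈ _ := st i _ (hD i) ⟨hx, by
          rw [eq_sub_of_add_eq q, sub_eq_add_neg]
          exact add_mem_sup ⟨γ, hc, rfl⟩ (neg_mem (vo_mono (dc i) ha))⟩
        exact (show x + α = cob k γ from q) ▸ add_mem this (vo_mono (dc i) ha)
      exact ⟨_, ⟨c', q1, rfl⟩, (mem_iInf _).2 fun i => vo_le ((hU i).le.trans win_hi)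
        (vs_le (mem_range_self (f := fun i => hi (s i) (a i)) i) subset_rfl q2), fun j hj => (hj rfl).elim, q3⟩)
  have low : ∀ f ∈ vo k cv (⋂ i, lo (s i) (c i)) 2, (∀ i, f ∈ vs k cv (𝒵 i) 2) → f ∈ EG :=
    fun f a b => e2 ⟨(mem_iInf _).2 b, (mem_iInf _).2 fun _ => a⟩
  let G : Submodule k (Co k 2 X × Co k 1 X × ∀ i, J i → k) :=
    { carrier := {p | p.2.1 ∈ CC k X 1 ∧ p.1 - cob k p.2.1 ∈ EG ∧
        (∀ i, ∀ U ∈ 𝒵 i, p.2.1 - Hp i p.1 - ∑ j, p.2.2 i j • ct i j ∈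
          vo k cv (U ∩ hi (s i) (c i)) 1) ∧ ∀ i j, ¬far i j → p.2.2 i j = 0}
      zero_mem' := by simp
      add_mem' := fun {a b} ha hb => ⟨add_mem ha.1 hb.1, by
        convert add_mem ha.2.1 hb.2.1 using 1; simp only [Prod.fst_add, Prod.snd_add, map_add]; abel,
        fun i U hU => by
          convert add_mem (ha.2.2.1 i U hU) (hb.2.2.1 i U hU) using 1
          simp only [Prod.fst_add, Prod.snd_add, map_add, Pi.add_apply, add_smul,
            Finset.sum_add_distrib]; abel,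
        fun i j q => by simp [ha.2.2.2 i j q, hb.2.2.2 i j q]⟩
      smul_mem' := fun c a ha => ⟨smul_mem _ c ha.1, by
        simpa [smul_sub] using smul_mem _ c ha.2.1, fun i U hU => by
          simpa [smul_sub, Finset.smul_sum, mul_smul] using smul_mem _ c (ha.2.2.1 i U hU),
        fun i j q => by simp [ha.2.2.2 i j q]⟩ }
  obtain ⟨S, s1, s2⟩ := exists_rel G (V := fun _ => vo k cv (⋂ i, lo (s i) (c i)) 2 ⊓
      ⨅ i, vs k cv (𝒵 i) 2 ⊓ LinearMap.ker (Hp i)) (W := fun _ => ⊥) monotone_const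
    monotone_const 1 (fun f => by
      obtain ⟨c0, q1, q2, q3⟩ := W.nf (fun i => hc i f) fun i => (par i).nf f
      obtain ⟨c1, r1, r2⟩ := ex_nf (sup_le e3 le_sup_right (W.top par (f - cob k c0)))
      have z1 : ∀ i, cob k c1 ∈ vs k cv (𝒵 i) 2 := fun i => St.vs (st i) ⟨by
        simpa using sub_mem q3 (e1 r2), mem_sup_left ⟨c1, r1, rfl⟩⟩
      choose c2 z2 z3 using fun i => exists_zp o (op i) r1 (z1 i)
      have := fun i => mv_surj isOpen_lo isOpen_hi (lo_union_hi (hab i)) h2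
        (φ := c2 i) (by rw [← win_eq, ← hU]; exact z2 i)
      choose β hb ha using this
      have := fun i => sp i (β i - ∑ j ∈ Finset.univ.erase i, (c2 j - β j))
        (sub_mem (hb i) (sum_mem fun j hj => ZP_mono
          (sep (Finset.ne_of_mem_erase hj).symm (hab j)) (ha j)))
      choose y y1 y2 using this
      choose η η1 η2 using fun i => mem_BP.1 (y2 i)
      obtain ⟨η0, b1, b2⟩ := glue (Z := fun i => hi (s i) (c i)) (fun i j q => (hd q).mono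
        (hi_mono (hac i).le) (hi_mono (hac j).le)) η1
      refine ⟨(c0 + c1 - ∑ i, (c2 i - β i) - cob k η0, y), sub_mem (sub_mem (add_mem q1 r1)
        (sum_mem fun i _ => (ha i).1)) (cob_mem_Cc b1), ?_, fun i U hU => ?_,
        fun i j q => by_contra fun e => q (y1 i j e)⟩
      · have := add_mem r2 (sum_mem fun i (_ : i ∈ Finset.univ) => low (cob k (c2 i - β i))
          (on_le ((iInter_subset _ i).trans (lo_mono (hcb i))) (ha i).2) fun j => by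
            by_cases q : j = i
            · subst q; exact zw j win_lo _ (ha j).2
            · exact zw j (win_hi.trans (sep q (hab i))) _ (ha i).2)
        convert this using 1
        simp only [map_sub, map_add, map_sum, cob_cob, LinearMap.id_apply]; abel
      · have := sub_mem (add_mem (vs_le (V := U ∩ hi (s i) (c i)) hU inter_subset_left
          (sub_mem (q2 i) (z3 i))) (on_le inter_subset_right (η2 i)))
          (on_le inter_subset_right (Sb.cob_mem (b2 i)))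
        convert this using 1
        show c0 + c1 - ∑ i, (c2 i - β i) - cob k η0 - _ - ∑ j, y i j • ct i j = _
        rw [← Finset.add_sum_erase _ (fun i => c2 i - β i) (Finset.mem_univ i), map_sub]
        abel)
    fun _ _ f hf => ⟨0, zero_mem _, zero_mem _, by
      simpa using low f hf.1 fun i => ((mem_iInf _).1 hf.2 i).1, fun i U _ => by
        have : Hp i f = 0 := ((mem_iInf _).1 hf.2 i).2
        simp [this], fun _ _ _ => rfl⟩
  refine ⟨LinearMap.fst _ _ _ ∘ₗ S, fun i j => LinearMap.proj j ∘ₗ LinearMap.proj i ∘ₗ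
    LinearMap.snd _ _ _ ∘ₗ S, EG, fun f => (s1 f).1, fun f => (s1 f).2.1, st_iff.1 (e4 ()),
    fun i z hz => st_iff.1 ((st i z hz).mono e1), fun i => e1.trans (iInf_le _ i), low,
    fun f a b => ?_, fun i f U hU => by simpa using (s1 f).2.2.1 i U hU, fun i j q => by_contra fun e =>
      q (LinearMap.ext fun f => (s1 f).2.2.2 i j e)⟩
  have : S f = 0 := s2 0 one_pos f ⟨a, (mem_iInf _).2 b⟩
  exact ⟨by simp [this], fun i j => by simp [this]⟩

end Crest.Agent.N255.Le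
end

-- ▼ part N255/Le/Wd
section
/-!
# Row 255 (helper71): the vertex parametrix `Ma.VF` exists
-/
namespace Crest.Agent.N255.Le
open Submodule Set Tp Module Wn Ma Pt En

variable {F : Subgroup F3} {S : Type} [MulAction F3 S] {X : Type} [TopologicalSpace X]
  [MulAction F X] [ContinuousConstSMul F X] {k : Type} [Field k] {g : Geo F k S X} {u R₀ : ℝ} {n : ℕ}

theorem geo_ov (g : Geo F k S X) : Ov g.E.cv := ⟨g.E.cv_open, univ_subset_iff.1 g.E.cv_cover⟩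

section wall
variable {J : Type} [Fintype J] {τ : Ty J} {e : Ed (Fin 3)} {o : Bool} (ω : Wd g u R₀ n τ e o)

theorem wd_pos : 0 < ω.l 0 := ω.u0.trans (ω.ua.trans_lt ω.al)

theorem wd_span (hn : 0 < n) {φ : Co k 1 X} (hφ : φ ∈ ZP k (hi (g.E.s e) (ω.l 0)) k 1) :
    ∃ x : J → k, (∀ j, x j ≠ 0 → τ.kd j ≠ o ∧ τ.sc j = 0) ∧
      φ - ∑ j, x j • ω.ct j ∈ BP k (hi (g.E.s e) (ω.l 2)) k 1 := by
  obtain ⟨x, h1, h2⟩ := ω.span false 0 hn φ (ZP_mono (hi_mono (ω.win.ml.monotone zero_le_one)) hφ)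
  refine ⟨x, fun j q => ⟨by simpa using (h1 j q).1, Nat.le_zero.1 (h1 j q).2⟩, ?_⟩
  have : φ - ∑ j, x j • ω.ct j = φ - ∑ j, x j • ω.h j - ∑ j, x j • (ω.ct j - ω.h j) := by
    simp only [smul_sub, Finset.sum_sub_distrib]; abel
  rw [this]
  refine sub_mem h2 (van_le_BP (sum_mem fun j _ => ?_))
  by_cases q : x j = 0
  · simp [q]
  · refine smul_mem _ _ (van_mono ?_ N255.Wv.ct_sub)
    rw [(h1 j q).1, Nat.le_zero.1 (h1 j q).2]
    exact hi_mono (ω.win.ml.monotone one_le_two)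

theorem wd_hp_mem (f : Co k 2 X) : ω.Hp f ∈ CC k X 1 := by
  rw [ω.Hp_apply]
  exact add_mem (ω.nf.mem f) (sum_mem fun j _ => smul_mem _ _ (N255.Wv.ct_Cc (ω.mem j).1))

theorem wd_hp_nf (f : Co k 2 X) : f - cob k (ω.Hp f) ∈ ω.E := by
  simpa [ω.Hp_apply, _root_.sub_sub] using ω.nf'.nf f

theorem wd_hp_zero (hn : 0 < n) {f : Co k 2 X} (h : f ∈ vs k g.E.cv (ω.Z 0) 2) : ω.Hp f = 0 := by
  simp [ω.Hp_apply, ω.nf'.zero f h, fun j => (ω.nf'.fl2 0 hn f h).2 j (Nat.zero_le _)]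

end wall

variable {J : Fin 3 → Type} [∀ i, Fintype (J i)] {τ : ∀ i, Ty (J i)} {v : F3} {h o : Fin 3 → Bool}

theorem exists_VF (h2 : Hc0 k X k 2) (hn : 0 < n)
    (ω : ∀ i, Wd g u R₀ n (τ i) (st v h i) (o i)) : Nonempty (VF ω) := by
  obtain ⟨HG, mu, EG, G⟩ := exists_vg (geo_ov g) h2 (s := fun i => g.E.s (st v h i))
    (a := fun i => (ω i).l 0) (c := fun i => (ω i).l 2) (b := fun i => (ω i).r 0)
    (fun i => (ω i).win.ml two_pos) (fun i => ((ω i).win.lt 2 0).le)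
    (fun i j q => Set.disjoint_left.2 fun x a b => by
      have := Sg.s_st (v := v) (h := h) g.E.toLev q x
      have a' : (ω i).l 0 < g.E.s (st v h i) x := a
      have b' : (ω j).l 0 < g.E.s (st v h j) x := b
      linarith [wd_pos (ω i), wd_pos (ω j)])
    (𝒵 := fun i => (ω i).Z 0) (fun i U hU => Wz.zs_open hU)
    (fun i => (ω i).win.lr.sUnion_zs n.zero_le) (fun i => .inr ⟨0, le_rfl, hn, .inl rfl⟩)
    (ct := fun i => (ω i).ct) (far := fun i j => (τ i).kd j ≠ o i ∧ (τ i).sc j = 0)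
    (fun i => wd_hp_mem (ω i)) (fun i => wd_hp_nf (ω i)) (fun i => (ω i).nf'.s1)
    fun i φ => wd_span (ω i) hn
  have e : (⋂ i, lo (g.E.s (st v h i)) ((ω i).l 2)) = Ocr ω := Set.ext fun x => mem_iInter
  rw [e] at G
  refine ⟨⟨HG, mu, EG, G.cc, G.nf, G.core, G.zn, fun i f σ hσ => ?_, G.mu0, fun f a b =>
    G.zero f a fun i => ⟨b i, wd_hp_zero (ω i) hn (b i)⟩⟩⟩
  obtain ⟨⟨⟨U, hU, a⟩, b⟩, c⟩ := hσ
  have := G.agr i f U hU σ ⟨subset_inter a c, b⟩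
  rw [← this, (ω i).Hp_apply]
  simp only [add_smul, Finset.sum_add_distrib, _root_.sub_sub, add_assoc]

theorem exists_VF' [T2Space X] [ChartedSpace (EE 4) X] (hn : 0 < n)
    (ω : ∀ i, Wd g u R₀ n (τ i) (st v h i) (o i)) : Nonempty (VF ω) :=
  exists_VF (hc0 (d := 3) g.nd g.acy (by omega) (by omega)) hn ω

end Crest.Agent.N255.Le
end

-- ▼ part N255/Jt/Vl
section

/-!
# Row 255 (helper48): the primitive of the sources of the vertex family
-/

set_option autoImplicit false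
open Set Module Sum

noncomputable section

namespace Crest.Agent.N255.Jt

open Cs Cs.Tw Tp Ku Lp

variable {p : ℕ} [Fact p.Prime] {K O : Type} [Field K] [CommRing O] [Algebra K O]
  {G : Gr (Gm p) K O} {m I : Ideal O} {X : Type} [TopologicalSpace X]
  {g g0 : Cn G X} {hm : G.Id m} {S : Co (Tw G) 2 X}
  {J : Fin 3 → Type} [∀ i, Fintype (J i)] {t : Fin 3 → Bool}
  {cG : (Σ i, J i ⊕ Bool) → Co K 1 X} {xG : (Σ i, J i ⊕ Bool) → Tw G} {ε : Fin 3 → Tw G}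
  {C : Fin 3 → Set X} {β η : Fin 3 → Co K 1 X}

theorem ct_sub' (A : Set X) {n : ℕ} (u v : Co K n X) : Wv.ct A (u - v) = Wv.ct A u - Wv.ct A v :=
  funext fun σ => by
    simp only [Ms.ct_apply, Pi.sub_apply]
    split_ifs <;> simp

variable (cG xG ε C β η) in
/-- the primitive of the sources -/
def pr : Co (Tw G) 1 X :=
  src (fun q : Σ i, J i => cG ⟨q.1, inl q.2⟩) (fun q => xG ⟨q.1, inl q.2⟩) +
    src (fun i => Wv.ct (C i) (β i - η i)) ε

theorem cob_pr : cob K (pr cG xG ε C β η) =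
    src (fun q : Σ i, J i => cob K (cG ⟨q.1, inl q.2⟩)) (fun q => xG ⟨q.1, inl q.2⟩) +
      src (fun i => cob K (Wv.ct (C i) (β i - η i))) ε := by
  rw [pr, map_add, cob_src, cob_src]

/-- the linear data at a vertex, modulo `I` -/
structure Lj (cG : (Σ i, J i ⊕ Bool) → Co K 1 X) (xG : (Σ i, J i ⊕ Bool) → Tw G) (ε : Fin 3 → Tw G)
    (C : Fin 3 → Set X) (β η : Fin 3 → Co K 1 X) (t : Fin 3 → Bool) (g0 : Cn G X) (I : Ideal O) :
    Prop where
  h0 : ∀ σ, In I ((Cs.dif g0 1 - src (fun i => Wv.ct (C i) (β i)) ε) σ)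
  y : ∀ i, cG ⟨i, inr true⟩ = 0
  wM : ∀ i, t i = true → cG ⟨i, inr false⟩ = -Wv.ct (C i) (η i)
  hM : ∀ i, t i = true → In I (xG ⟨i, inr false⟩ - ε i)
  hL : ∀ i, t i = false → In I (xG ⟨i, inr false⟩) ∧ In I (ε i)

variable {hn : IsNilpotent m} {u0 : ∀ σ, g0 σ ∈ U hm} {ha : ∀ σ, In m (src cG xG σ)}

namespace Lj

variable (h : Lj cG xG ε C β η t g0 I)
include h

theorem dif (σ : Sx 1 X) : In I ((Cs.dif (pl hn g0 u0 (src cG xG) ha) 1 - pr cG xG ε C β η) σ) := by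
  have k : ∀ i, In I (cG ⟨i, inr false⟩ σ • xG ⟨i, inr false⟩ + Wv.ct (C i) (η i) σ • ε i) := fun i => by
    rcases e : t i
    · exact In.add (in_smul _ (h.hL i e).1) (in_smul _ (h.hL i e).2)
    · exact In.eq (in_smul (-Wv.ct (C i) (η i) σ) (h.hM i e)) (by
        rw [h.wM i e, Pi.neg_apply, smul_sub, neg_smul, neg_smul, sub_neg_eq_add])
  refine In.eq (In.add (h.h0 σ) (In.sum fun i (_ : i ∈ Finset.univ) => k i)) ?_
  simp only [dif_pl_one, pr, src, ct_sub', Pi.add_apply, Pi.sub_apply, Fintype.sum_sigma,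
    Fintype.sum_sum_type, Fintype.sum_bool, h.y, Pi.zero_apply, zero_smul, zero_add, sub_smul,
    Finset.sum_add_distrib, Finset.sum_sub_distrib]
  abel

variable [Module.Finite K O] {H : Co K 2 X →ₗ[K] Co K 1 X}
  (F : Fam hm H (pl hn g0 u0 (src cG xG) ha) S g) (mI : m * m ≤ I)
  (hS : ∀ σ, In I ((S - cob K (pr cG xG ε C β η)) σ))
include F mI hS



/-- **the normalised curvature of the vertex family lies in `I`** -/
theorem cur (σ : Sx 2 X) : In I ((cur g - S) σ) := fam_cur F mI h.dif hS σ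


end Lj

omit [∀ i, Fintype (J i)] in
/-- the data for the base of helper2 -/
theorem lj_bs {V : Vt K X t} {x a b : Fin 3 → (Tw G)ˣ} {hx : ∀ j, x j ∈ U hm} (mI : m * m ≤ I)
    (hC : Pairwise fun i j => Disjoint (C i) (C j)) (ua : ∀ j, a j ∈ U hm) (ub : ∀ j, b j ∈ U hm)
    (hx' : ∀ i, In I ((x i).val - 1)) (ha : ∀ i, In I ((a i).val - 1))
    (hb : ∀ i, In I ((b i).val - 1 - ε i)) (y : ∀ i, cG ⟨i, inr true⟩ = 0)
    (wM : ∀ i, t i = true → cG ⟨i, inr false⟩ = -Wv.ct (C i) (η i))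
    (hw : ∀ i, xG ⟨i, inr false⟩ = (b i).val - 1) (hL : ∀ i, t i = false → In I (ε i)) :
    Lj cG xG ε C (fun i => Ms.zc K (V.T i).be) η t (Ms.bs V (Ms.slv C) a b hm hn hx) I :=
  ⟨bs_in mI hC ua ub hx' ha hb, y, wM, fun i _ => (hw i).symm ▸ hb i, fun i e =>
    ⟨(hw i).symm ▸ In.eq (In.add (hb i) (hL i e)) (sub_add_cancel _ _).symm, hL i e⟩⟩

end Crest.Agent.N255.Jt

end
end

-- ▼ part N255/Jt/Vd

/-!
# Row 255 (helper48): the linear parts at a vertex: the generators have no far linear term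
-/

set_option autoImplicit false
open Set Module Sum

noncomputable section

namespace Crest.Agent.N255.Ma
open Tp Nv Pt Lv En Wn Le Cs Cs.Tw Jt _root_.N255.Core _root_.N255.Dr _root_.N255.Dr.O

variable (p : ℕ) [Fact p.Prime] {J : Fin 3 → Type} [∀ i, Fintype (J i)]

variable (J) in
/-- the variables `y` and the `w` of the `L` slots -/
def YN (o : Fin 3 → Bool) : Set (Σ i, Uv p (J i)) :=
  {q | q.2.1 = inr true ∨ q.2.1 = inr false ∧ o q.1 = false}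

/-- the variables which are not far -/
def NF (τ : ∀ i, Ty (J i)) (o : Fin 3 → Bool) : Set (Σ i, Uv p (J i)) :=
  {q | (τ q.1).kdU p q.2 ≠ some (!o q.1)}

variable {p} {F : Subgroup F3} {S : Type} [MulAction F3 S] {X : Type} [TopologicalSpace X]
  [MulAction F X] [ContinuousConstSMul F X] {g : Geo F (ZMod p) S X} {u R₀ : ℝ} {n : ℕ}
  {τ : ∀ i, Ty (J i)} {v : F3} {h o : Fin 3 → Bool}

omit [Fact p.Prime] [∀ i, Fintype (J i)] in
theorem YN_NF : YN p J o ⊆ NF p τ o := by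
  rintro ⟨i, x, γ⟩ (e | ⟨e, f⟩) <;> dsimp only at e <;> subst e
  · simp [NF, Ty.kdU]
  · simpa [NF, Ty.kdU] using f


theorem xV_Jl {T : Set (Σ i, Uv p (J i))} {q : Cl3 J} (e : ∀ γ, ⟨q.1, q.2, γ⟩ ∈ T) :
    In (Jl p (ZMod p) T) (xV p q) := sum_mem fun γ _ => z_Jl (e γ)

namespace Vd
variable (D : Vd g u R₀ n τ v h o)

theorem C_dj48 : Pairwise fun i j => Disjoint (D.C i) (D.C j) := fun _ _ e =>
  (subset_compl_iff_disjoint_right).1 (Vl.hi_compl e (D.c_pos _).le (D.c_pos _).le)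

theorem la_s48 (i : Fin 3) : In (mx * mx) (D.la i) := D.V0.la_in (G2_mx p J) (xM_U p o) i

/-- the jumps of the longitudes -/
def εw (_D : Vd g u R₀ n τ v h o) (i : Fin 3) : Tw (G2 p J) := if o i then xV p ⟨i, inr false⟩ else 0

theorem be_x48 (i : Fin 3) : Ms.zc (ZMod p) (D.V0.T i).be - (D.ω i).η = (D.ω i).xw :=
  congrArg (· - (D.ω i).η) (funext fun σ => Lev.mz_cast (ZMod p) σ)

theorem lj : Lj D.lin.cG D.xG D.εw D.C (fun i => Ms.zc (ZMod p) (D.V0.T i).be) (fun i => (D.ω i).η) o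
    D.G0 (Jl p (ZMod p) (YN p J o)) := by
  refine lj_bs le_sup_right D.C_dj48 (fun _ => uV_U p _) D.bV_U (fun i => ?_) (fun i => ?_)
    (fun i => ?_) D.lin.y D.lin.wM (fun _ => rfl) fun i e => by rw [εw, e]; exact in_zero
  · rw [xM, uV_sub]
    exact xV_Jl fun γ => by rcases e : o i; exacts [.inr ⟨rfl, e⟩, .inl rfl]
  · rw [aV, uV_sub]; exact xV_Jl fun γ => .inl rfl
  · rw [bV, εw]
    split_ifs with e
    · exact In.eq ((D.la_s48 i).mono le_sup_right) (by rw [val_un]; abel)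
    · rw [uV_sub, sub_zero]; exact xV_Jl fun γ => .inr ⟨rfl, by simpa using e⟩

theorem SG_e48 : D.SG = cob (ZMod p) (Jt.pr D.lin.cG D.xG D.εw D.C
    (fun i => Ms.zc (ZMod p) (D.V0.T i).be) fun i => (D.ω i).η) := by
  funext σ
  have k : ∀ i, D.qa ⟨i, inr false⟩ σ • xV p ⟨i, inr false⟩ = cob (ZMod p) (D.ew i) σ • D.εw i :=
    fun i => by by_cases e : o i = true <;> simp [qa, pq, εw, e]
  have k' : ∀ i, D.qa ⟨i, inr true⟩ = 0 := fun i => by simp [qa, pq]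
  simp only [cob_pr, SG, Lp.src, Pi.add_apply, Fintype.sum_sigma, Fintype.sum_sum_type,
    Fintype.sum_bool, D.lin.cob_inl, be_x48, k, k', Pi.zero_apply, zero_smul, zero_add,
    Finset.sum_add_distrib]
  rfl

theorem hS48 {I : Ideal (OV p J)} (σ : Sx 2 X) : In I ((D.SG - cob (ZMod p) (Jt.pr D.lin.cG D.xG D.εw D.C
    (fun i => Ms.zc (ZMod p) (D.V0.T i).be) fun i => (D.ω i).η)) σ) := by
  rw [← SG_e48, sub_self]; exact in_zero



theorem cur_J (σ : Sx 2 X) : In (Jl p (ZMod p) (YN p J o)) ((cur D.GV - D.SG) σ) :=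
  D.lj.cur D.fam le_sup_right D.hS48 σ

theorem XV_J : D.XV ≤ Jl p (ZMod p) (YN p J o) := by
  refine sup_le ((id_Jl (G2_z p J) _).sp_le.2 ?_) (le_sup_of_le_right
    (Ideal.mul_mono (Ideal.mul_le_left.trans (NV_le p o)) (NV_le p o)))
  rintro _ ⟨i, rfl⟩
  rw [Ms.ja]
  split_ifs with e
  · rw [xM, e, aV, sub_self]; exact in_zero
  · exact In.eq (In.sub (xV_Jl (q := ⟨i, inr true⟩) fun γ => .inl rfl) ((D.la_s48 i).mono le_sup_right))
      (by rw [← uV_sub, aV, la]; abel)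

theorem bX_m48 (i : D.βX) : D.bX i ∈ D.XV := D.span_bX.le (Ideal.subset_span ⟨i, rfl⟩)

variable (K : Set X) (ρ : D.Ix → Ch (ZMod p) 4 X)

/-- the near sources -/
theorem near_J (σ : Sx 2 X) :
    In (Jl p (ZMod p) (NF p τ o)) ((D.SG - Lp.src (D.Y K ρ).q D.ε) σ) := by
  classical
  have e := Finset.sum_subtype (p := fun q : Cl3 J => (τ q.1).kb q.2 = some (!o q.1))
    (F := (inferInstance : Fintype (Fr τ o))) 
    (Finset.univ.filter fun q => (τ q.1).kb q.2 = some (!o q.1)) (fun _ => by simp)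
    fun q => D.qa q σ • xV p q
  refine In.eq (In.sum fun q (hq : q ∈ Finset.univ.filter
    fun q : Cl3 J => ¬ (τ q.1).kb q.2 = some (!o q.1)) =>
      Ku.in_smul (D.qa q σ) (xV_Jl (T := NF p τ o) fun γ => (Finset.mem_filter.1 hq).2)) ?_
  exact sub_eq_iff_eq_add'.2 ((Finset.sum_filter_add_sum_filter_not _ _ _).symm.trans
    (congrArg (· + _) e))

/-- **the normalised curvature has no far linear term** -/
theorem f_J (σ : Sx 2 X) : In (Jl p (ZMod p) (NF p τ o)) (D.f K ρ σ) :=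
  Lp.ci_univ.1 (f_in (Lp.ci_univ.2 fun σ => (D.cur_J σ).mono (Jl_mono YN_NF)) (Lp.ci_univ.2 (D.near_J K ρ))) σ

/-- **the generators have no far linear term** -/
theorem hJ (a : D.Ga K ρ) : (D.Z K ρ).E a ∈ Jl p (ZMod p) (NF p τ o) := by
  have hI := id_Jl (G2_z p J) (NF p τ o)
  rcases a with a | i | i
  · exact Jt.E_mem hI (D.f_J K ρ) a.1 a.2
  · exact Jl_mono YN_NF (D.XV_J (D.bX_m48 i))
  · rcases Lz.Gz.bx_inr (dp := D.dp) (b := D.bX) i with e | ⟨-, -, e⟩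
    · exact (show (D.Y K ρ).bx D.GV D.ε D.dp D.bX (.inr i) ∈ _ from e ▸ zero_mem _)
    · exact (Lz.vI_le hI).2 (fun σ _ => D.f_J K ρ σ) e

theorem hJ48 (a : D.Ga K ρ) :
    (D.Z K ρ).E a ∈ Jl p (ZMod p) {q | (τ q.1).kb q.2.1 ≠ some (!o q.1)} := D.hJ K ρ a




end Vd

end Crest.Agent.N255.Ma

end
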